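import Crest.Agent.Lib.Mod2Chain.Carrier

/-!
Two-graphs on ten points: the double cover of the complex of balanced sets carries no hemisphere
sequence of length three (the Arnoux-Marin bound: `w ^ 3 ≠ 0` needs eleven vertices).
-/

set_option autoImplicit false
set_option maxHeartbeats 400000

namespace Crest.Agent.R50

open MvPolynomial Crest.Agent.Mod2Chain

variable {α : Type*}

/-- a signing of the pairs -/
structure Sgn (α : Type*) where
  s : α → α → ZMod 2
  symm : ∀ i j, s i j = s j i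
  self : ∀ i, s i i = 0

namespace Sgn

variable (g : Sgn α)

def tri (a b c : α) : ZMod 2 := g.s a b + g.s b c + g.s a c

def Bal (A : Finset α) : Prop := ∀ a ∈ A, ∀ b ∈ A, ∀ c ∈ A, g.tri a b c = 0

def Clq (σ : Set (α × ZMod 2)) : Prop := ∀ y ∈ σ, ∀ y' ∈ σ, y.2 + y'.2 = g.s y.1 y'.1

def nu (y : α × ZMod 2) : α × ZMod 2 := (y.1, y.2 + 1)

def ClqB (B : Finset α) (σ : Set (α × ZMod 2)) : Prop := g.Clq σ ∧ ∀ y ∈ σ, y.1 ∈ B

def Ind (B : Finset α) (k : ℕ) : Prop := ∃ β, Hemi (g.ClqB B) nu k β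

theorem two_eq (a : ZMod 2) : a + a = 0 := CharTwo.add_self_eq_zero a

theorem nu_invol : Function.Involutive (nu : α × ZMod 2 → α × ZMod 2) := by
  rintro ⟨i, a⟩
  simp only [nu, Prod.mk.injEq, true_and]
  revert a; decide

theorem tri_base (o a b c : α) : g.tri a b c = g.tri o a b + g.tri o b c + g.tri o a c := by
  simp only [tri]
  linear_combination - two_eq (g.s o a) - two_eq (g.s o b) - two_eq (g.s o c)

theorem tri_swap12 (a b c : α) : g.tri a b c = g.tri b a c := by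
  simp only [tri, g.symm b a]; ring

theorem tri_swap23 (a b c : α) : g.tri a b c = g.tri a c b := by
  simp only [tri, g.symm c b]; ring

theorem tri_aab (a b : α) : g.tri a a b = 0 := by
  simp only [tri, g.self, zero_add, two_eq]

theorem tri_abb (a b : α) : g.tri a b b = 0 := by
  simp only [tri, g.self, add_zero, two_eq]

theorem tri_aba (a b : α) : g.tri a b a = 0 := by
  rw [tri_swap23, tri_aab]

theorem bal_of_base {A : Finset α} (o : α) (h : ∀ a ∈ A, ∀ b ∈ A, g.tri o a b = 0) : g.Bal A := by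
  intro a ha b hb c hc
  rw [tri_base g o, h a ha b hb, h b hb c hc, h a ha c hc]; simp

theorem Bal.mono {g : Sgn α} {A A' : Finset α} (h : g.Bal A) (hs : A' ⊆ A) : g.Bal A' :=
  fun a ha b hb c hc => h a (hs ha) b (hs hb) c (hs hc)

variable [DecidableEq α]

theorem bal_three {a b c : α} (h : g.tri a b c = 0) : g.Bal {a, b, c} := by
  refine bal_of_base g a ?_
  have h' : g.tri a c b = 0 := by rw [← tri_swap23, h]
  simp [tri_aab, tri_abb, tri_aba, h, h']

theorem bal_four {a b c d : α} (h1 : g.tri a b c = 0) (h2 : g.tri a b d = 0)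
    (h3 : g.tri a c d = 0) : g.Bal {a, b, c, d} := by
  refine bal_of_base g a ?_
  have h1' : g.tri a c b = 0 := by rw [← tri_swap23, h1]
  have h2' : g.tri a d b = 0 := by rw [← tri_swap23, h2]
  have h3' : g.tri a d c = 0 := by rw [← tri_swap23, h3]
  simp [tri_aab, tri_abb, tri_aba, h1, h2, h3, h1', h2', h3']

omit [DecidableEq α] in
theorem down_ClqB (B : Finset α) : Down (g.ClqB B) :=
  fun _ _ h hs => ⟨fun y hy y' hy' => hs.1 y (h hy) y' (h hy'), fun y hy => hs.2 y (h hy)⟩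

omit [DecidableEq α] in
theorem Clq.eq_of_fst {g : Sgn α} {σ : Set (α × ZMod 2)} (h : g.Clq σ) {y y' : α × ZMod 2}
    (hy : y ∈ σ) (hy' : y' ∈ σ) (e : y.1 = y'.1) : y = y' := by
  have := h y hy y' hy'
  rw [e, g.self] at this
  refine Prod.ext e ?_
  linear_combination this - two_eq y'.2

omit [DecidableEq α] in
theorem free_ClqB (B : Finset α) : ∀ s, g.ClqB B s → ∀ y ∈ s, nu y ∉ s := by
  intro s hs y hy h
  have := congrArg Prod.snd (hs.1.eq_of_fst hy h rfl)
  simp [nu] at this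

theorem Clq.bal {g : Sgn α} {σ : Finset (α × ZMod 2)} (h : g.Clq σ) : g.Bal (σ.image Prod.fst) := by
  intro a ha b hb c hc
  obtain ⟨x, hx, rfl⟩ := Finset.mem_image.1 ha
  obtain ⟨y, hy, rfl⟩ := Finset.mem_image.1 hb
  obtain ⟨z, hz, rfl⟩ := Finset.mem_image.1 hc
  rw [tri, ← h x hx y hy, ← h y hy z hz, ← h x hx z hz]
  linear_combination two_eq x.2 + two_eq y.2 + two_eq z.2

theorem Ind.remove {g : Sgn α} {A B : Finset α} (hA : g.Bal A) {k : ℕ} (h : g.Ind B (k + 1)) :
    g.Ind (B \ A) k := by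
  obtain ⟨t, ht⟩ : ∃ t : α → ZMod 2, ∀ i ∈ A, ∀ j ∈ A, t i + t j = g.s i j := by
    rcases A.eq_empty_or_nonempty with rfl | ⟨o, ho⟩
    · exact ⟨0, by simp⟩
    · refine ⟨g.s o, fun i hi j hj => ?_⟩
      have := hA o ho i hi j hj
      rw [tri] at this
      linear_combination this - two_eq (g.s i j)
  obtain ⟨β, hβ⟩ := h
  have h01 : ∀ a b : ZMod 2, a = b ∨ a = b + 1 := by decide
  let AA : Bool → Set (α × ZMod 2) := fun b => {y | y.1 ∈ A ∧ y.2 = t y.1 + if b then 0 else 1}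
  have c1 : Disjoint (AA true) (AA false) := by
    rw [Set.disjoint_left]
    rintro y ⟨-, h1⟩ ⟨-, h2⟩
    rw [h1] at h2
    simp at h2
  have c2 : ∀ b y, nu y ∈ AA b ↔ y ∈ AA (!b) := by
    rintro b ⟨i, a⟩
    simp only [AA, nu, Set.mem_ofPred_eq]
    refine and_congr_right fun _ => ?_
    generalize t i = c
    cases b <;> revert a c <;> decide
  have c3 : ∀ s, g.ClqB B s → (∀ y ∈ s, y ∉ AA true) ∨ (∀ y ∈ s, y ∉ AA false) := by
    intro s hs
    by_contra hcon
    push Not at hcon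
    obtain ⟨⟨y, hy, h1, h2⟩, y', hy', h3, h4⟩ := hcon
    have := hs.1 y hy y' hy'
    rw [h2, h4, ← ht _ h1 _ h3] at this
    simp only [if_true, add_zero, Bool.false_eq_true, if_false] at this
    have h5 : (1 : ZMod 2) = 0 := by linear_combination this
    exact absurd h5 (by decide)
  obtain ⟨γ, hγ⟩ := hβ.remove (g.down_ClqB B) AA c1 c2 c3
  refine ⟨γ, hγ.mono ?_⟩
  rintro s ⟨h1, h2⟩
  refine ⟨h1.1, fun y hy => Finset.mem_sdiff.2 ⟨h1.2 y hy, fun hyA => h2 y hy ?_⟩⟩
  rcases h01 y.2 (t y.1) with h | h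
  · left; exact ⟨hyA, by simpa using h⟩
  · right; exact ⟨hyA, by simpa using h⟩

theorem Ind.simplex [Fintype α] {g : Sgn α} {B : Finset α} {k : ℕ} (h : g.Ind B k) :
    ∃ T ⊆ B, T.card = k + 1 ∧ g.Bal T ∧
      (1 ≤ k → ∀ d ∈ T, ∃ e ∈ B, e ∉ T ∧ g.Bal (insert e (T.erase d))) := by
  obtain ⟨β, hβ⟩ := h
  have h1 := hβ.notMem_Deg (g.down_ClqB B) nu_invol (g.free_ClqB B)
  have h2 := hβ.cycle nu_invol
  have h3 : β + rename nu β ∈ Ch (g.ClqB B) (k + 1) := by
    refine Submodule.add_mem _ hβ.mem (Ch.rename nu ?_ hβ.mem)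
    rintro s ⟨h4, h5⟩
    refine ⟨?_, ?_⟩
    · rintro _ ⟨y, hy, rfl⟩ _ ⟨y', hy', rfl⟩
      simp only [nu]
      rw [← h4 y hy y' hy']
      linear_combination two_eq (1 : ZMod 2)
    · rintro _ ⟨y, hy, rfl⟩; exact h5 y hy
  generalize β + rename nu β = ω at h1 h2 h3
  obtain ⟨m, hsq, hm⟩ := exists_sq_of_notMem_Deg h1
  obtain ⟨⟨h4, h5⟩, h6⟩ := h3 m hm
  have hcard : m.support.card = k + 1 := by
    rw [← h6, Finsupp.degree_apply, Finset.card_eq_sum_ones]
    refine Finset.sum_congr rfl fun y hy => ?_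
    have := Finsupp.mem_support_iff.1 hy
    have := hsq y
    omega
  refine ⟨m.support.image Prod.fst, ?_, ?_, h4.bal, ?_⟩
  · intro a ha
    obtain ⟨y, hy, rfl⟩ := Finset.mem_image.1 ha
    exact h5 y hy
  · rw [Finset.card_image_of_injOn fun y hy y' hy' e => h4.eq_of_fst hy hy' e, hcard]
  · intro hk d hd
    obtain ⟨y, hy, rfl⟩ := Finset.mem_image.1 hd
    obtain ⟨v, hv, hm'⟩ := ridge h2 hsq hm hy
    obtain ⟨⟨h7, h8⟩, -⟩ := h3 _ hm'
    have hmem : ∀ u, u ∈ (m - Finsupp.single y 1 + Finsupp.single v 1 : α × ZMod 2 →₀ ℕ).support ↔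
        u = v ∨ (u ∈ m.support ∧ u ≠ y) := by
      intro u
      have := hsq u
      simp only [Finsupp.mem_support_iff, Finsupp.add_apply, Finsupp.coe_tsub, Pi.sub_apply,
        Finsupp.single_apply]
      by_cases e1 : v = u
      · simp [e1]
      · by_cases e2 : y = u
        · subst e2; simp [e1, Ne.symm e1]; omega
        · simp [e1, e2, Ne.symm e1, Ne.symm e2]
    have hv' := (hmem v).2 (Or.inl rfl)
    refine ⟨v.1, h8 v hv', ?_, h7.bal.mono ?_⟩
    · intro hvT
      obtain ⟨u, hu, huv⟩ := Finset.mem_image.1 hvT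
      have huv' : u ≠ v := fun e => hv (e ▸ hu)
      have huy : u = y := by
        by_contra hne
        exact huv' (h7.eq_of_fst ((hmem u).2 (Or.inr ⟨hu, hne⟩)) hv' huv)
      subst huy
      obtain ⟨w, hw, hwu⟩ := Finset.exists_mem_ne (s := m.support) (by omega) u
      have e1 := h4 u hu w hw
      have e2 := h7 v hv' w ((hmem w).2 (Or.inr ⟨hw, hwu⟩))
      apply huv'
      refine Prod.ext huv ?_
      rw [← huv, ← e1] at e2
      linear_combination -e2
    · intro a ha
      rcases Finset.mem_insert.1 ha with rfl | ha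
      · exact Finset.mem_image_of_mem _ hv'
      · obtain ⟨h9, h10⟩ := Finset.mem_erase.1 ha
        obtain ⟨u, hu, rfl⟩ := Finset.mem_image.1 h10
        exact Finset.mem_image_of_mem _ ((hmem u).2 (Or.inr ⟨hu, fun e => h9 (e ▸ rfl)⟩))

variable [Fintype α]

theorem Ind.card_one {g : Sgn α} {B : Finset α} (h : g.Ind B 0) : 1 ≤ B.card := by
  obtain ⟨T, h1, h2, -⟩ := h.simplex
  have := Finset.card_le_card h1; omega

theorem Ind.not_bal {g : Sgn α} {B : Finset α} (h : g.Ind B 1) : ¬ g.Bal B := by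
  intro hb
  have := (h.remove hb).card_one
  simp at this

theorem Ind.card_three {g : Sgn α} {B : Finset α} (h : g.Ind B 1) : 3 ≤ B.card := by
  obtain ⟨T, h1, h2, h3, -⟩ := h.simplex
  have := (h.remove h3).card_one
  rw [Finset.card_sdiff_of_subset h1] at this; omega

theorem Ind.card_six {g : Sgn α} {B : Finset α} (h : g.Ind B 2) : 6 ≤ B.card := by
  obtain ⟨T, h1, h2, h3, -⟩ := h.simplex
  have := (h.remove h3).card_three
  rw [Finset.card_sdiff_of_subset h1] at this; omega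

/-- the regular two-graph on six points -/
def M6 : Fin 6 → Fin 6 → ZMod 2 :=
  ![![0, 0, 0, 0, 0, 0], ![0, 0, 0, 0, 1, 1], ![0, 0, 0, 1, 1, 0], ![0, 0, 1, 0, 0, 1],
    ![0, 1, 1, 0, 0, 0], ![0, 1, 0, 1, 0, 0]]

theorem M6_sum : ∀ i j : Fin 6, ∑ k, (M6 i j + M6 j k + M6 i k) = 0 := by decide +kernel

theorem M6_four : ∀ a b c d : Fin 6, a ≠ b → a ≠ c → a ≠ d → b ≠ c → b ≠ d → c ≠ d →
    ¬ (M6 a b + M6 b c + M6 a c = M6 a b + M6 b d + M6 a d ∧
      M6 a b + M6 b d + M6 a d = M6 a c + M6 c d + M6 a d) := by decide +kernel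

/-- what is used of the regular two-graph -/
def Reg (B : Finset α) : Prop :=
  (∀ a ∈ B, ∀ b ∈ B, ∑ c ∈ B, g.tri a b c = 0) ∧
    ∀ a ∈ B, ∀ b ∈ B, ∀ c ∈ B, ∀ d ∈ B, a ≠ b → a ≠ c → a ≠ d → b ≠ c → b ≠ d → c ≠ d →
      ¬ (g.tri a b c = g.tri a b d ∧ g.tri a b d = g.tri a c d)

theorem Ind.reg {g : Sgn α} {B : Finset α} (hB : B.card = 6) (h : g.Ind B 2) : g.Reg B := by
  obtain ⟨T, h1, h2, h3, h4⟩ := h.simplex
  have F1 : ∀ a ∈ B, ∀ b ∈ B, ∀ c ∈ B, ∀ d ∈ B, a ≠ b → a ≠ c → a ≠ d → b ≠ c → b ≠ d → c ≠ d →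
      g.tri a b c = 0 → g.tri a b d = 0 → g.tri a c d ≠ 0 := by
    intro a ha b hb c hc d hd e1 e2 e3 e4 e5 e6 t1 t2 t3
    have := (h.remove (g.bal_four t1 t2 t3)).card_three
    rw [Finset.card_sdiff_of_subset (by simp [Finset.insert_subset_iff, ha, hb, hc, hd]),
      Finset.card_insert_of_notMem (by simp [e1, e2, e3]),
      Finset.card_insert_of_notMem (by simp [e4, e5]), Finset.card_pair e6] at this
    omega
  obtain ⟨i, j, k, hij, hik, hjk, rfl⟩ := Finset.card_eq_three.1 h2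
  obtain ⟨e1, he1, he1', b1⟩ := h4 (by norm_num) k (by simp)
  obtain ⟨e2, he2, he2', b2⟩ := h4 (by norm_num) i (by simp)
  obtain ⟨e3, he3, he3', b3⟩ := h4 (by norm_num) j (by simp)
  simp only [Finset.mem_insert, Finset.mem_singleton, not_or] at he1' he2' he3'
  have hi : i ∈ B := h1 (by simp)
  have hj : j ∈ B := h1 (by simp)
  have hk : k ∈ B := h1 (by simp)
  have t012 : g.tri i j k = 0 := h3 i (by simp) j (by simp) k (by simp)
  have t013 : g.tri i j e1 = 0 := b1 i (by simp [hik]) j (by simp [hjk]) e1 (by simp)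
  have t124 : g.tri j k e2 = 0 :=
    b2 j (by simp [hij.symm]) k (by simp [hik.symm]) e2 (by simp)
  have t025 : g.tri i k e3 = 0 := b3 i (by simp [hij]) k (by simp [hjk.symm]) e3 (by simp)
  have t023 : g.tri i k e1 ≠ 0 := F1 i hi j hj k hk e1 he1 hij hik (Ne.symm he1'.1) hjk
    (Ne.symm he1'.2.1) (Ne.symm he1'.2.2) t012 t013
  have t104 : g.tri j i e2 ≠ 0 := F1 j hj k hk i hi e2 he2 hjk hij.symm (Ne.symm he2'.2.1) hik.symm
    (Ne.symm he2'.2.2) (Ne.symm he2'.1) (by rw [tri_swap23, tri_swap12, t012]) t124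
  have t015 : g.tri i j e3 ≠ 0 := F1 i hi k hk j hj e3 he3 hik hij (Ne.symm he3'.1) hjk.symm
    (Ne.symm he3'.2.2) (Ne.symm he3'.2.1) (by rw [tri_swap23, t012]) t025
  have t014 : g.tri i j e2 ≠ 0 := by rwa [tri_swap12]
  have n12 : e1 ≠ e2 := by rintro rfl; exact t014 t013
  have n13 : e1 ≠ e3 := by rintro rfl; exact t015 t013
  have n23 : e2 ≠ e3 := by
    rintro rfl
    apply t014
    have := g.tri_base i j k e2
    rw [t124, t012, t025] at this
    linear_combination -this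
  let f : Fin 6 → α := ![i, j, k, e1, e2, e3]
  have hf : Function.Injective f := by
    have : List.Nodup (List.ofFn f) := by
      simp [f, hij, hik, hjk, Ne.symm he1'.1, Ne.symm he1'.2.1, Ne.symm he1'.2.2, Ne.symm he2'.1,
        Ne.symm he2'.2.1, Ne.symm he2'.2.2, Ne.symm he3'.1, Ne.symm he3'.2.1, Ne.symm he3'.2.2,
        n12, n13, n23]
    exact List.nodup_ofFn.1 this
  have hBf : B = Finset.univ.map ⟨f, hf⟩ := by
    symm
    apply Finset.eq_of_subset_of_card_le
    · intro a ha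
      obtain ⟨x, -, rfl⟩ := Finset.mem_map.1 ha
      fin_cases x <;> simp [f, hi, hj, hk, he1, he2, he3]
    · simp [hB]
  have hBmem : ∀ a ∈ B, a = i ∨ a = j ∨ a = k ∨ a = e1 ∨ a = e2 ∨ a = e3 := by
    intro a ha
    rw [hBf] at ha
    obtain ⟨x, -, rfl⟩ := Finset.mem_map.1 ha
    fin_cases x <;> simp [f]
  have F2 : ∀ a b c a' b' c', g.tri a b c = 0 → B \ {a, b, c} ⊆ {a', b', c'} →
      g.tri a' b' c' ≠ 0 := by
    intro a b c a' b' c' t hs t'
    exact (h.remove (g.bal_three t)).not_bal ((g.bal_three t').mono hs)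
  have t245 : g.tri k e2 e3 ≠ 0 := F2 _ _ _ _ _ _ t013 (by
    intro a ha
    obtain ⟨h5, h6⟩ := Finset.mem_sdiff.1 ha
    have := hBmem a h5
    simp only [Finset.mem_insert, Finset.mem_singleton] at h6 ⊢; tauto)
  have t035 : g.tri i e1 e3 ≠ 0 := F2 _ _ _ _ _ _ t124 (by
    intro a ha
    obtain ⟨h5, h6⟩ := Finset.mem_sdiff.1 ha
    have := hBmem a h5
    simp only [Finset.mem_insert, Finset.mem_singleton] at h6 ⊢; tauto)
  have t134 : g.tri j e1 e2 ≠ 0 := F2 _ _ _ _ _ _ t025 (by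
    intro a ha
    obtain ⟨h5, h6⟩ := Finset.mem_sdiff.1 ha
    have := hBmem a h5
    simp only [Finset.mem_insert, Finset.mem_singleton] at h6 ⊢; tauto)
  have u014 := zmod2_eq_one t014
  have u015 := zmod2_eq_one t015
  have u023 := zmod2_eq_one t023
  have u035 := zmod2_eq_one t035
  have u024 : g.tri i k e2 = 1 := by
    have := g.tri_base i j k e2
    rw [t124, t012, u014] at this
    linear_combination -this - two_eq (1 : ZMod 2)
  have u045 : g.tri i e2 e3 = 0 := by
    have := g.tri_base i k e2 e3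
    rw [zmod2_eq_one t245, u024, t025] at this
    linear_combination -this
  have u034 : g.tri i e1 e2 = 0 := by
    have := g.tri_base i j e1 e2
    rw [zmod2_eq_one t134, t013, u014] at this
    linear_combination -this
  have hT : ∀ x y : Fin 6, g.tri i (f x) (f y) = M6 x y := by
    have s1 : g.tri i k j = 0 := by rw [tri_swap23, t012]
    have s2 : g.tri i e1 j = 0 := by rw [tri_swap23, t013]
    have s3 : g.tri i e2 j = 1 := by rw [tri_swap23, u014]
    have s4 : g.tri i e3 j = 1 := by rw [tri_swap23, u015]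
    have s5 : g.tri i e1 k = 1 := by rw [tri_swap23, u023]
    have s6 : g.tri i e2 k = 1 := by rw [tri_swap23, u024]
    have s7 : g.tri i e3 k = 0 := by rw [tri_swap23, t025]
    have s8 : g.tri i e2 e1 = 0 := by rw [tri_swap23, u034]
    have s9 : g.tri i e3 e1 = 1 := by rw [tri_swap23, u035]
    have s10 : g.tri i e3 e2 = 0 := by rw [tri_swap23, u045]
    intro x y
    fin_cases x <;> fin_cases y <;>
      simp [f, M6, tri_aab, tri_abb, tri_aba, t012, t013, u014, u015, u023, u024, t025, u034,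
        u035, u045, s1, s2, s3, s4, s5, s6, s7, s8, s9, s10]
  have hT3 : ∀ x y z : Fin 6, g.tri (f x) (f y) (f z) = M6 x y + M6 y z + M6 x z := by
    intro x y z; rw [g.tri_base i, hT, hT, hT]
  have hB' : ∀ a ∈ B, ∃ x, f x = a := by
    intro a ha
    rw [hBf] at ha
    obtain ⟨x, -, rfl⟩ := Finset.mem_map.1 ha
    exact ⟨x, rfl⟩
  refine ⟨?_, ?_⟩
  · intro a ha b hb
    obtain ⟨x, rfl⟩ := hB' a ha
    obtain ⟨y, rfl⟩ := hB' b hb
    rw [hBf, Finset.sum_map]
    simp only [Function.Embedding.coeFn_mk, hT3]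
    exact M6_sum x y
  · intro a ha b hb c hc d hd e1 e2 e3 e4 e5 e6
    obtain ⟨x, rfl⟩ := hB' a ha
    obtain ⟨y, rfl⟩ := hB' b hb
    obtain ⟨z, rfl⟩ := hB' c hc
    obtain ⟨w, rfl⟩ := hB' d hd
    simp only [hT3]
    exact M6_four x y z w (fun e => e1 (e ▸ rfl)) (fun e => e2 (e ▸ rfl)) (fun e => e3 (e ▸ rfl))
      (fun e => e4 (e ▸ rfl)) (fun e => e5 (e ▸ rfl)) (fun e => e6 (e ▸ rfl))

/-- no hemisphere sequence of length three on ten points -/
theorem not_ind_three (hα : Fintype.card α = 10) : ¬ g.Ind Finset.univ 3 := by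
  intro h
  obtain ⟨A, -, hA, hbal, hnb⟩ := h.simplex
  have reg : ∀ A' : Finset α, A'.card = 4 → g.Bal A' → g.Reg (Finset.univ \ A') := by
    intro A' h1 h2
    refine Ind.reg ?_ (h.remove h2)
    rw [Finset.card_sdiff_of_subset (Finset.subset_univ _), Finset.card_univ, hα, h1]
  have no5 : ∀ A' : Finset α, A'.card = 5 → ¬ g.Bal A' := by
    intro A' h1 h2
    have := (h.remove h2).card_six
    rw [Finset.card_sdiff_of_subset (Finset.subset_univ _), Finset.card_univ, hα, h1] at this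
    omega
  choose! e _ he hb using hnb (by norm_num)
  have rB := reg A hA hbal
  -- twins
  have twin : ∀ x ∈ A, ∀ i j, i ∉ A → j ∉ A → i ≠ e x → j ≠ e x → g.tri i j x = g.tri i j (e x) := by
    intro x hx i j hi hj hie hje
    have hc : (insert (e x) (A.erase x)).card = 4 := by
      rw [Finset.card_insert_of_notMem (fun h' => he x hx (Finset.mem_of_mem_erase h')),
        Finset.card_erase_of_mem hx, hA]
    have r1 := (reg _ hc (hb x hx)).1 i (by simp [hi, hie]) j (by simp [hj, hje])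
    have r2 := rB.1 i (by simp [hi]) j (by simp [hj])
    have e1 : Finset.univ \ insert (e x) (A.erase x) = insert x ((Finset.univ \ A).erase (e x)) := by
      ext a
      simp only [Finset.mem_sdiff, Finset.mem_univ, true_and, Finset.mem_insert, Finset.mem_erase,
        not_or, not_and]
      constructor
      · rintro ⟨h1, h2⟩
        by_cases h3 : a = x
        · exact Or.inl h3
        · exact Or.inr ⟨h1, h2 h3⟩
      · rintro (rfl | ⟨h1, h2⟩)
        · exact ⟨fun h' => he a hx (h' ▸ hx), fun h' => absurd rfl h'⟩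
        · exact ⟨h1, fun _ => h2⟩
    rw [e1, Finset.sum_insert (by simp [hx])] at r1
    rw [← Finset.add_sum_erase _ _ (a := e x) (by simp [he x hx])] at r2
    linear_combination r1 - r2
  -- balanced triples through `e x`
  have bx : ∀ x ∈ A, ∀ y ∈ A, ∀ z ∈ A, y ≠ x → z ≠ x → g.tri y z (e x) = 0 := by
    intro x hx y hy z hz h1 h2
    exact hb x hx y (by simp [h1, hy]) z (by simp [h2, hz]) (e x) (by simp)
  have einj : ∀ x ∈ A, ∀ y ∈ A, x ≠ y → e x ≠ e y := by
    intro x hx y hy hxy hexy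
    refine no5 (insert (e x) A) (by rw [Finset.card_insert_of_notMem (he x hx), hA]) ?_
    obtain ⟨o, ho, hox, hoy⟩ : ∃ o ∈ A, o ≠ x ∧ o ≠ y := by
      have : 0 < ((A.erase x).erase y).card := by
        rw [Finset.card_erase_of_mem (by simp [hy, hxy.symm]), Finset.card_erase_of_mem hx, hA]
        norm_num
      obtain ⟨o, ho⟩ := Finset.card_pos.1 this
      simp only [Finset.mem_erase] at ho
      exact ⟨o, ho.2.2, ho.2.1, ho.1⟩
    have key : ∀ a ∈ A, g.tri o a (e x) = 0 := by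
      intro a ha
      by_cases hax : a = x
      · rw [hexy]; exact bx y hy o ho a ha hoy (hax ▸ hxy)
      · exact bx x hx o ho a ha hox hax
    refine bal_of_base g o ?_
    intro a ha b hb'
    rcases Finset.mem_insert.1 ha with rfl | ha <;> rcases Finset.mem_insert.1 hb' with rfl | hb'
    · exact g.tri_abb _ _
    · rw [tri_swap23]; exact key b hb'
    · exact key a ha
    · exact hbal o ho a ha b hb'
  have step : ∀ a ∈ A, ∀ b ∈ A, ∀ c ∈ A, ∀ d ∈ A, a ≠ b → a ≠ c → a ≠ d → b ≠ c → b ≠ d → c ≠ d →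
      g.tri (e a) (e b) (e c) = g.tri (e a) (e b) (e d) := by
    intro a ha b hb' c hc d hd e1 e2 e3 e4 e5 e6
    rw [← twin c hc _ _ (he a ha) (he b hb') (einj a ha c hc e2) (einj b hb' c hc e4),
      ← twin d hd _ _ (he a ha) (he b hb') (einj a ha d hd e3) (einj b hb' d hd e5)]
    have t1 := bx a ha c hc d hd e2.symm e3.symm
    have t2 := bx b hb' c hc d hd e4.symm e5.symm
    simp only [tri] at t1 t2 ⊢
    rw [g.symm d (e a), g.symm c (e a)] at t1
    rw [g.symm d (e b), g.symm c (e b)] at t2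
    linear_combination t1 + t2 - two_eq (g.s (e a) d) - two_eq (g.s (e b) d) - two_eq (g.s c d)
  obtain ⟨a, b, c, d, e1, e2, e3, e4, e5, e6, hAe⟩ : ∃ a b c d : α, a ≠ b ∧ a ≠ c ∧ a ≠ d ∧ b ≠ c ∧
      b ≠ d ∧ c ≠ d ∧ A = {a, b, c, d} := Finset.card_eq_four.1 hA
  have ha : a ∈ A := by simp [hAe]
  have hb' : b ∈ A := by simp [hAe]
  have hc : c ∈ A := by simp [hAe]
  have hd : d ∈ A := by simp [hAe]
  refine rB.2 (e a) (by simp [he a ha]) (e b) (by simp [he b hb']) (e c) (by simp [he c hc])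
    (e d) (by simp [he d hd]) (einj a ha b hb' e1) (einj a ha c hc e2) (einj a ha d hd e3)
    (einj b hb' c hc e4) (einj b hb' d hd e5) (einj c hc d hd e6) ⟨?_, ?_⟩
  · exact step a ha b hb' c hc d hd e1 e2 e3 e4 e5 e6
  · rw [tri_swap23, g.tri_swap23 (e a) (e c)]
    exact step a ha d hd b hb' c hc e3 e1 e2 e5.symm e6.symm e4

end Sgn

end Crest.Agent.R50
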