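import Crest.Agent.R50.PartA2

/-!
The join of the three projective spaces has odd degree; conclusion.
-/

set_option autoImplicit false
set_option maxHeartbeats 400000

namespace Crest.Agent.R50

open Crest.Agent.Mod2Chain MvPolynomial Filter

/-- vertices of the join: tagged rank-one forms and the two apexes -/
abbrev XX := (Fin 3 × E) ⊕ Bool

noncomputable def f0 : XX → E := Sum.elim (fun q => q.2) (fun b => pt (9, b))

noncomputable def f1 : XX → E := Sum.elim (fun q => F1 q.1 q.2) (fun b => pt (9, b))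

noncomputable def l3 : XX → Fin 10 × Bool := Sum.elim (fun q => emb q.1 (ell q.1 q.2)) (fun b => (9, b))

theorem pt_true : (pt (9, true) : E) = idf := rfl

theorem pt_false : (pt (9, false) : E) = -idf := by
  rw [← pt_true, ← pt_flipL]; rfl

theorem idf_ne_zero : idf ≠ 0 := by
  intro h
  have := congrFun h 9
  simp [idf] at this

theorem hull_ne_zero {N : E →ₗ[ℝ] ℝ} (hN : N idf = 0) (b : Bool) {S : Set E}
    (hS : ∀ M ∈ S, 0 < N M ∨ M = pt (9, b)) : convexHull ℝ S ⊆ {M | M ≠ 0} := by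
  have hb : N (pt (9, b)) = 0 := by
    cases b
    · rw [pt_false, map_neg, hN, neg_zero]
    · exact hN
  have hb' : (pt (9, b) : E) ≠ 0 := by
    cases b
    · rw [pt_false]; exact neg_ne_zero.2 idf_ne_zero
    · exact idf_ne_zero
  have hc : Convex ℝ {M : E | 0 < N M ∨ M = pt (9, b)} := by
    intro M hM M' hM' a c ha hc hac
    rcases ha.eq_or_lt with rfl | ha'
    · rw [zero_add] at hac; subst hac; simpa using hM'
    rcases hc.eq_or_lt with rfl | hc'
    · rw [add_zero] at hac; subst hac; simpa using hM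
    rcases hM with h | rfl <;> rcases hM' with h' | rfl
    · left; simp only [map_add, map_smul, smul_eq_mul]; positivity
    · left; simp only [map_add, map_smul, smul_eq_mul, hb]; nlinarith [mul_pos ha' h]
    · left; simp only [map_add, map_smul, smul_eq_mul, hb]; nlinarith [mul_pos hc' h']
    · right; rw [← add_smul, hac, one_smul]
  intro M hM h0
  rcases convexHull_min hS hc hM with h | h
  · rw [h0] at h; simp at h
  · exact hb' (h ▸ h0)

theorem zc_prod : rename (emb 0) (zc (Jv 0)) * rename (emb 1) (zc (Jv 1)) *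
    rename (emb 2) (zc (Jv 2)) * (X (9, true) + X (9, false)) = zc (Finset.univ : Finset (Fin 10)) := by
  have h0 : Jv 0 = {0, 1, 2, 3} := by decide
  have h1 : Jv 1 = {1, 2, 3} := by decide
  have h2 : Jv 2 = {2, 3} := by decide
  rw [h0, h1, h2]
  simp [zc, emb, idx, Fin.prod_univ_succ]
  ring

namespace Data

variable (D : Data)

noncomputable def G2 : XX → Fin 10 × Bool := Sum.elim (fun q => (D.col q.2, true)) (fun b => (0, b))

/-- admissible simplices of the join -/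
def Good (σ : Set XX) : Prop :=
  (∀ q, Sum.inl q ∈ σ → ∃ x, x ≠ 0 ∧ q.2 = ver x) ∧
  (∃ N₁ N₂ : E →ₗ[ℝ] ℝ, N₁ idf = 0 ∧ N₂ idf = 0 ∧ ∀ q, Sum.inl q ∈ σ → Loc N₁ N₂ q.1 q.2) ∧
  (∃ u, dot u u = 1 ∧ ∀ q, Sum.inl q ∈ σ → bil q.2 u u ≤ D.e / 8) ∧
  ∃ b, ∀ b', Sum.inr b' ∈ σ → b' = b

theorem down_Good : Down D.Good := by
  rintro s t h ⟨h1, ⟨N₁, N₂, a1, a2, a3⟩, ⟨u, b1, b2⟩, b, c⟩
  exact ⟨fun q hq => h1 q (h hq), ⟨N₁, N₂, a1, a2, fun q hq => a3 q (h hq)⟩,
    ⟨u, b1, fun q hq => b2 q (h hq)⟩, b, fun b' hb' => c b' (h hb')⟩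

/-- the carrier of a simplex of the join in the signed labels -/
def Lab (σ : Set XX) : Set (Fin 10 × Bool) :=
  {y | (y.2 = true ∧ (Sum.inr true ∈ σ ∨ ∀ u, dot u u = 1 →
      (∀ q, Sum.inl q ∈ σ → bil q.2 u u ≤ D.e / 8) → y.1 ≠ D.col (ver u))) ∨
    (y.2 = false ∧ Sum.inr false ∈ σ)}

theorem Lab_mono {s t : Set XX} (h : t ⊆ s) : D.Lab t ⊆ D.Lab s := by
  rintro y (⟨h1, h2 | h2⟩ | ⟨h1, h2⟩)
  · exact Or.inl ⟨h1, Or.inl (h h2)⟩
  · exact Or.inl ⟨h1, Or.inr fun u hu hq => h2 u hu fun q hq' => hq q (h hq')⟩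
  · exact Or.inr ⟨h1, h h2⟩

theorem G2_mem {σ : Set XX} (hσ : D.Good σ) {v : XX} (hv : v ∈ σ) : D.G2 v ∈ D.Lab σ := by
  rcases v with q | b
  · obtain ⟨x, hx, e⟩ := hσ.1 q hv
    refine Or.inl ⟨rfl, Or.inr fun u hu hq => ?_⟩
    have := hq q hv
    rw [e] at this
    show D.col q.2 ≠ _
    rw [e]; exact D.col_ne hx hu this
  · cases b
    · exact Or.inr ⟨rfl, hv⟩
    · exact Or.inl ⟨rfl, Or.inl hv⟩

theorem kap_mem {σ : Set XX} (hσ : D.Good σ) {M : E} (hM : M ∈ convexHull ℝ (f0 '' σ)) :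
    D.kap M ∈ D.Lab σ := by
  have hpos : Sum.inr false ∉ σ → (D.kap M).2 = true := by
    intro h
    have hc : Convex ℝ {M : E | PSD M ∧ 1 ≤ tr M} := by
      rintro M ⟨h1, h2⟩ M' ⟨h1', h2'⟩ a b ha hb hab
      refine ⟨fun w => ?_, ?_⟩
      · rw [bil_add, bil_smul, bil_smul]
        have := h1 w
        have := h1' w
        positivity
      · rw [tr_add, tr_smul, tr_smul]; nlinarith
    have := convexHull_min (t := {M : E | PSD M ∧ 1 ≤ tr M}) (by
      rintro _ ⟨q | b, hq, rfl⟩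
      · obtain ⟨x, hx, e⟩ := hσ.1 q hq
        show PSD q.2 ∧ 1 ≤ tr q.2
        rw [e]; exact ⟨PSD_ver x, (tr_ver hx).ge⟩
      · cases b
        · exact absurd hq h
        · show PSD idf ∧ 1 ≤ tr idf
          exact ⟨fun w => by rw [bil_idf]; exact dot_self_nonneg w, by rw [tr_idf]; norm_num⟩) hc hM
    refine D.kap_snd_of_PSD this.1 ?_
    rintro rfl
    have h2 := this.2
    norm_num [tr] at h2
  rcases hb : (D.kap M).2 with _ | _
  · refine Or.inr ⟨hb, ?_⟩
    by_contra h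
    rw [hpos h] at hb; simp at hb
  · refine Or.inl ⟨hb, ?_⟩
    by_cases h : Sum.inr true ∈ σ
    · exact Or.inl h
    · refine Or.inr fun u hu hq e => D.kap_ne_of_mem_Yu hu (M := M) ?_ (Prod.ext e hb)
      refine convexHull_min ?_ (D.convex_Yu u) hM
      rintro _ ⟨q | b, hq', rfl⟩
      · obtain ⟨x, hx, e⟩ := hσ.1 q hq'
        refine ⟨0, le_rfl, ?_, ?_⟩
        · show PSD (q.2 + _)
          rw [zero_smul, add_zero, e]; exact PSD_ver x
        · show bil (q.2 + _) u u ≤ _ * tr (q.2 + _)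
          have := hq q hq'
          rw [zero_smul, add_zero, e, tr_ver hx, mul_one, ← e]; exact this
      · cases b
        · refine ⟨1, zero_le_one, ?_, ?_⟩
          · show PSD (pt (9, false) + _)
            rw [pt_false, one_smul, neg_add_cancel]; intro w; simp [bil]
          · show bil (pt (9, false) + _) u u ≤ _ * tr (pt (9, false) + _)
            rw [pt_false, one_smul, neg_add_cancel]; simp [bil, tr]
        · exact absurd hq' h

theorem top_bd_kap {y : P E} {n : ℕ} (hy : y ∈ Ch (Small D.cov) n) :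
    coeff (plus Finset.univ) (rename D.kap (bd y)) = 0 := by
  rw [← bd_rename]
  refine coeff_plus_bd (Ch.rename _ ?_ hy)
  rintro s hs ⟨h1, i, h2⟩
  obtain ⟨M, hM, -⟩ := h1 i
  obtain ⟨U, hU, h3⟩ := hs ⟨M, hM⟩
  exact hU.2.2 _ (Set.image_mono h3 (h1 i)) (Set.image_mono h3 h2)

theorem degree_one {η : P XX} (hη : η ∈ Ch D.Good 10) (h0 : bd η = 0)
    (h3 : rename l3 η + zc Finset.univ ∈ Deg _) :
    coeff (plus Finset.univ) (rename D.G2 η) = 1 := by
  have ho : ∀ U ∈ D.cov, IsOpen U := fun U hU => hU.1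
  have hc : ∀ U ∈ D.cov, Convex ℝ U := fun U hU => hU.2.1
  have e01 := homotopy_small ho hc D.down_Good f0 f1 (by
    rintro s ⟨-, ⟨N₁, N₂, a1, -, a3⟩, -, b, hb⟩
    refine (hull_ne_zero a1 b ?_).trans D.cov_covers
    rintro _ (⟨q | b', hq, rfl⟩ | ⟨q | b', hq, rfl⟩)
    · exact Or.inl (a3 q hq).1
    · exact Or.inr (by rw [hb b' hq]; rfl)
    · exact Or.inl (a3 q hq).2.1
    · exact Or.inr (by rw [hb b' hq]; rfl)) hη h0
  have e13 := homotopy_small ho hc D.down_Good f1 (pt ∘ l3) (by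
    rintro s ⟨-, ⟨N₁, N₂, -, a2, a3⟩, -, b, hb⟩
    refine (hull_ne_zero a2 b ?_).trans D.cov_covers
    rintro _ (⟨q | b', hq, rfl⟩ | ⟨q | b', hq, rfl⟩)
    · exact Or.inl (a3 q hq).2.2.1
    · exact Or.inr (by rw [hb b' hq]; rfl)
    · exact Or.inl (a3 q hq).2.2.2
    · exact Or.inr (by rw [hb b' hq]; rfl)) hη h0
  have et := tucker ho D.cov_covers D.kap D.kap_neg (fun U hU => hU.2.2)
  obtain ⟨k, ⟨⟨⟨y1, hy1, b1⟩, y2, hy2, b2⟩, bt⟩, hk⟩ :=
    (((e01.and e13).and et).and (eventually_ge_atTop 1)).exists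
  have t1 := D.top_bd_kap hy1
  have t2 := D.top_bd_kap hy2
  have t3 := sd_pow_deg hk (Deg.rename pt h3)
  rw [map_add, map_add, rename_rename] at t3
  rw [b1, map_add, coeff_add] at t1
  rw [b2, map_add, coeff_add, eq_of_add_eq_zero t3, bt] at t2
  obtain ⟨y, hy, hb⟩ := carrier_cycle D.down_Good (fun s n => Ch (fun t => t ⊆ D.Lab s) n)
    (fun s t n _ hts p hp => Ch.mono (fun u hu => hu.trans (D.Lab_mono hts)) hp)
    (fun s hs ⟨v, hv⟩ => acyc_subset ⟨_, D.G2_mem hs hv⟩)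
    ((rename D.kap : P E →ₐ[ZMod 2] P (Fin 10 × Bool)).toLinearMap ∘ₗ
      (sd ^ k : Module.End (ZMod 2) (P E)) ∘ₗ (rename f0 : P XX →ₐ[ZMod 2] P E).toLinearMap +
      (rename D.G2 : P XX →ₐ[ZMod 2] P (Fin 10 × Bool)).toLinearMap)
    (by simp [add_self]) 10 (fun p => by simp [bd_sd_pow, bd_rename])
    (fun m hm _ => by
      simp only [LinearMap.add_apply, LinearMap.comp_apply, AlgHom.toLinearMap_apply]
      have h2 := monomial_mem_Ch (S := fun t => t ⊆ (m.support : Set XX)) subset_rfl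
      refine Submodule.add_mem _ (Ch.rename D.kap ?_ (sd_pow_mem_convex
        (convex_convexHull ℝ (f0 '' (m.support : Set XX))) (Ch.rename f0 ?_ h2) k))
        (Ch.rename D.G2 ?_ h2)
      · rintro s hs _ ⟨x, hx, rfl⟩
        exact D.kap_mem hm (hs hx)
      · exact fun s hs => (Set.image_mono hs).trans (subset_convexHull ℝ _)
      · rintro s hs _ ⟨x, hx, rfl⟩
        exact D.G2_mem hm (hs hx))
    (Ch (fun s => ¬ ((∀ i, (i, true) ∈ s) ∧ ∃ i, (i, false) ∈ s)) (10 + 1))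
    (fun s hs p hp => Ch.mono (by
      rintro t ht ⟨c1, i, c2⟩
      obtain ⟨-, -, ⟨u, hu, hq⟩, b, hb⟩ := hs
      have c3 : Sum.inr false ∈ s := by
        rcases ht c2 with ⟨h, -⟩ | ⟨-, h⟩
        · simp at h
        · exact h
      rcases ht (c1 (D.col (ver u))) with ⟨-, h | h⟩ | ⟨h, -⟩
      · have := (hb _ h).trans (hb _ c3).symm
        simp at this
      · exact h u hu hq rfl
      · simp at h) hp) hη h0
  have t4 := coeff_plus_bd hy
  rw [hb] at t4
  simp only [LinearMap.add_apply, LinearMap.comp_apply, AlgHom.toLinearMap_apply, coeff_add] at t4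
  linear_combination t4 - t1 + t2 - Sgn.two_eq (1 : ZMod 2)

theorem contra (D : Data) : False := by
  classical
  obtain ⟨δ, hδ, hloc⟩ := loc_uniform
  obtain ⟨m, ⟨a0, d0⟩, ⟨a1, d1⟩, a2, d2⟩ :=
    ((D.block hδ 0).and ((D.block hδ 1).and (D.block hδ 2))).exists
  let tag : Fin 3 → V → XX := fun j p => Sum.inl (j, ver p)
  let z : Fin 3 → P XX := fun j => rename (tag j) ((sd ^ m) (alpha j))
  have hbz : ∀ {Y : Type} (j : Fin 3) (f : V → Y), (∀ x, f (-x) = f x) →
      bd (rename f ((sd ^ m) (alpha j))) = 0 := by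
    intro Y j f hf
    rw [bd_rename, bd_sd_pow, bd_alpha]
    exact rename_even_zc _ hf (Jv'_nonempty j) m
  have hz : ∀ j, bd (z j) = 0 := fun j => hbz j _ fun x => by simp only [tag, ver_neg]
  let Zj : Fin 3 → Set XX → Prop := fun j s => ∃ t, D.Fine δ j t ∧ s = tag j '' t
  have c0 : (Jv 0).card = 4 := by decide
  have c1 : (Jv 1).card = 3 := by decide
  have c2 : (Jv 2).card = 2 := by decide
  rw [c0] at a0
  rw [c1] at a1
  rw [c2] at a2
  have m0 : z 0 ∈ Ch (Zj 0) 4 := Ch.rename _ (fun s hs => ⟨s, hs, rfl⟩) a0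
  have m1 : z 1 ∈ Ch (Zj 1) 3 := Ch.rename _ (fun s hs => ⟨s, hs, rfl⟩) a1
  have m2 : z 2 ∈ Ch (Zj 2) 2 := Ch.rename _ (fun s hs => ⟨s, hs, rfl⟩) a2
  have m3 : (X (Sum.inr true) + X (Sum.inr false) : P XX) ∈
      Ch (fun s => ∃ b, s = {Sum.inr b}) 1 :=
    Submodule.add_mem _ (X_mem_Ch ⟨true, rfl⟩) (X_mem_Ch ⟨false, rfl⟩)
  have hη : z 0 * z 1 * z 2 * (X (Sum.inr true) + X (Sum.inr false)) ∈ Ch D.Good (4 + 3 + 2 + 1) := by
    refine Ch.mul (S₁ := fun s => ∃ a b c, Zj 0 a ∧ Zj 1 b ∧ Zj 2 c ∧ s = a ∪ b ∪ c) ?_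
      (Ch.mul (S₁ := fun s => ∃ a b, Zj 0 a ∧ Zj 1 b ∧ s = a ∪ b) ?_
        (Ch.mul (fun a b ha hb => ⟨a, b, ha, hb, rfl⟩) m0 m1) m2) m3
    swap
    · rintro _ c ⟨a, b, ha, hb, rfl⟩ hc
      exact ⟨a, b, c, ha, hb, hc, rfl⟩
    rintro _ _ ⟨_, _, _, ⟨t0, h0, rfl⟩, ⟨t1, h1, rfl⟩, ⟨t2, h2, rfl⟩, rfl⟩ ⟨b, rfl⟩
    obtain ⟨k0, hk0, x0, g0⟩ := h0.data
    obtain ⟨k1, hk1, x1, g1⟩ := h1.data
    obtain ⟨k2, hk2, x2, g2⟩ := h2.data
    obtain ⟨u, hu, u0, u1, u2⟩ := exists_orth x0 x1 x2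
    obtain ⟨N₁, N₂, n1, n2, n3⟩ := hloc ![k0, k1, k2] (fun j => by fin_cases j <;> assumption)
    have key : ∀ q : Fin 3 × E, Sum.inl q ∈ tag 0 '' t0 ∪ tag 1 '' t1 ∪ tag 2 '' t2 ∪ {Sum.inr b} →
        (∃ x, x ≠ 0 ∧ q.2 = ver x) ∧ Loc N₁ N₂ q.1 q.2 ∧ bil q.2 u u ≤ D.e / 8 := by
      rintro q (((⟨p, hp, e⟩ | ⟨p, hp, e⟩) | ⟨p, hp, e⟩) | e)
      · obtain rfl := Sum.inl_injective e
        obtain ⟨r1, r2, r3, r4⟩ := g0 p hp
        exact ⟨⟨p, r1, rfl⟩, n3 0 _ r2 r3, r4 u hu u0⟩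
      · obtain rfl := Sum.inl_injective e
        obtain ⟨r1, r2, r3, r4⟩ := g1 p hp
        exact ⟨⟨p, r1, rfl⟩, n3 1 _ r2 r3, r4 u hu u1⟩
      · obtain rfl := Sum.inl_injective e
        obtain ⟨r1, r2, r3, r4⟩ := g2 p hp
        exact ⟨⟨p, r1, rfl⟩, n3 2 _ r2 r3, r4 u hu u2⟩
      · simp at e
    refine ⟨fun q hq => (key q hq).1, ⟨N₁, N₂, n1, n2, fun q hq => (key q hq).2.1⟩,
      ⟨u, hu, fun q hq => (key q hq).2.2⟩, b, ?_⟩
    rintro b' (((⟨p, -, e⟩ | ⟨p, -, e⟩) | ⟨p, -, e⟩) | e)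
    · simp [tag] at e
    · simp [tag] at e
    · simp [tag] at e
    · simpa using e
  have hbη : bd (z 0 * z 1 * z 2 * (X (Sum.inr true) + X (Sum.inr false))) = 0 := by
    simp only [bd_mul, hz, map_add, bd_X, add_self, zero_mul, mul_zero, add_zero]
  have hl3 : ∀ j, rename l3 (z j) =
      rename (emb j) (rename (fun x => ell j (ver x)) ((sd ^ m) (alpha j))) := by
    intro j
    simp only [z, rename_rename]
    rfl
  have hdeg : rename l3 (z 0 * z 1 * z 2 * (X (Sum.inr true) + X (Sum.inr false))) +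
      zc Finset.univ ∈ Deg _ := by
    rw [← zc_prod]
    simp only [map_mul, map_add, rename_X, hl3]
    have d0' := Deg.rename (emb 0) d0
    have d1' := Deg.rename (emb 1) d1
    have d2' := Deg.rename (emb 2) d2
    rw [map_add] at d0' d1' d2'
    generalize rename (emb 0) (rename (fun x => ell 0 (ver x)) ((sd ^ m) (alpha 0))) = A at *
    generalize rename (emb 1) (rename (fun x => ell 1 (ver x)) ((sd ^ m) (alpha 1))) = B at *
    generalize rename (emb 2) (rename (fun x => ell 2 (ver x)) ((sd ^ m) (alpha 2))) = C at *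
    generalize rename (emb 0) (zc (Jv 0)) = A' at *
    generalize rename (emb 1) (zc (Jv 1)) = B' at *
    generalize rename (emb 2) (zc (Jv 2)) = C' at *
    show A * B * C * (X (9, true) + X (9, false)) + A' * B' * C' * (X (9, true) + X (9, false)) ∈ _
    generalize (X (9, true) + X (9, false) : P (Fin 10 × Bool)) = T
    have e : A * B * C * T + A' * B' * C' * T =
        (A + A') * (B * C * T) + (B + B') * (A' * C * T) + (C + C') * (A' * B' * T) := by
      linear_combination - add_self (A' * B * C * T) - add_self (A' * B' * C * T)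
    rw [e]
    exact Submodule.add_mem _ (Submodule.add_mem _ (Deg.mul_right d0' _) (Deg.mul_right d1' _))
      (Deg.mul_right d2' _)
  have hone := D.degree_one hη hbη hdeg
  have hG : ∀ j, rename D.G2 (z j) = rename D.lab ((sd ^ m) (alpha j)) := by
    intro j
    simp only [z, rename_rename]
    rfl
  simp only [map_mul, map_add, rename_X, hG] at hone
  rw [mul_add, coeff_add, mul_comm _ (X (D.G2 (Sum.inr Bool.false))), coeff_X_mul', if_neg (by
    rw [mem_support_plus]; simp [G2]), add_zero] at hone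
  refine D.partB (Ch.rename _ (fun s hs => D.near_of_small hs.small) a0)
    (Ch.rename _ (fun s hs => D.near_of_small hs.small) a1)
    (hbz 0 _ fun x => by simp only [lab, ver_neg]) (hbz 1 _ fun x => by simp only [lab, ver_neg])
    (Ch.mono (fun s hs => hs.small) a2) (p := pt (3, true)) ?_ ?_ hone
  · intro h
    have := congrFun h 3
    simp [pt] at this
  · have : Jv' 2 = {3} := by decide
    rw [bd_sd_pow, bd_alpha, this, zc, Finset.prod_singleton, map_add, map_add, rename_X, rename_X,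
      sd_pow_X, sd_pow_X, ← pt_flipL]
    rfl

end Data

end Crest.Agent.R50
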