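import Crest.Agent.R50.Core

/-!
The Veronese embedding of the projective three-space in nine-dimensional Euclidean space.
-/

set_option autoImplicit false
set_option maxHeartbeats 400000

namespace Crest.Agent.R50

noncomputable def emb9 (M : E) : EuclideanSpace ℝ (Fin 9) :=
  WithLp.toLp 2 ![M 0 + M 4 - M 7, M 0 - M 4 + M 7, M 0 - M 4 - M 7, 2 * (M 5 - M 3),
    2 * (M 5 + M 3), 2 * (M 6 + M 2), 2 * (M 6 - M 2), 2 * (M 8 - M 1), 2 * (M 8 + M 1)]

theorem dist_emb9 {x y : V} (hx : x ≠ 0) (hy : y ≠ 0) :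
    dist (emb9 (ver x)) (emb9 (ver y)) ^ 2 * (dot x x * dot y y) =
      8 * (dot x x * dot y y - dot x y ^ 2) := by
  have h1 := (dot_self_pos hx).ne'
  have h2 := (dot_self_pos hy).ne'
  rw [EuclideanSpace.dist_sq_eq]
  simp only [emb9, ver, Fin.sum_univ_succ, Real.dist_eq, sq_abs]
  simp
  field_simp
  simp only [dot]
  ring

def S9 : Set (EuclideanSpace ℝ (Fin 9)) := {p | ∃ x : V, x ≠ 0 ∧ p = emb9 (ver x)}

theorem dist_sq_le {p q : EuclideanSpace ℝ (Fin 9)} (hp : p ∈ S9) (hq : q ∈ S9) :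
    dist p q ^ 2 ≤ 8 := by
  obtain ⟨x, hx, rfl⟩ := hp
  obtain ⟨y, hy, rfl⟩ := hq
  have h := dist_emb9 hx hy
  have h1 := mul_pos (dot_self_pos hx) (dot_self_pos hy)
  refine le_of_mul_le_mul_right ?_ h1
  rw [h]; nlinarith [sq_nonneg (dot x y)]

theorem dist_le {p q : EuclideanSpace ℝ (Fin 9)} (hp : p ∈ S9) (hq : q ∈ S9) :
    dist p q ≤ √8 := Real.le_sqrt_of_sq_le (dist_sq_le hp hq)

theorem S9_bounded : Bornology.IsBounded S9 :=
  Metric.isBounded_iff.2 ⟨√8, fun _ hp _ hq => dist_le hp hq⟩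

theorem S9_diam : Metric.diam S9 ≤ √8 :=
  Metric.diam_le_of_forall_dist_le (Real.sqrt_nonneg _) fun _ hp _ hq => dist_le hp hq

theorem S9_nontrivial : S9.Nontrivial := by
  have h0 : (Pi.single 0 1 : V) ≠ 0 := ne_zero_of_dot_one (dot_single 0)
  have h1 : (Pi.single 1 1 : V) ≠ 0 := ne_zero_of_dot_one (dot_single 1)
  refine ⟨_, ⟨_, h0, rfl⟩, _, ⟨_, h1, rfl⟩, fun h => ?_⟩
  have := dist_emb9 h0 h1
  rw [h, dist_self] at this
  simp [dot] at this

theorem S9_main (c : EuclideanSpace ℝ (Fin 9) → Fin 10) :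
    ∃ i : Fin 10, Metric.diam S9 ≤ Metric.diam (S9 ∩ c ⁻¹' {i}) := by
  by_contra hcon
  push Not at hcon
  obtain ⟨i₀, -, hi₀⟩ := Finset.exists_max_image (Finset.univ : Finset (Fin 10))
    (fun i => Metric.diam (S9 ∩ c ⁻¹' {i})) Finset.univ_nonempty
  set d := Metric.diam (S9 ∩ c ⁻¹' {i₀}) with hd
  have hd0 : 0 ≤ d := Metric.diam_nonneg
  have hd8 : d ^ 2 < 8 := by
    have := (hcon i₀).trans_le S9_diam
    rwa [Real.lt_sqrt hd0] at this
  refine Data.contra ⟨fun M => c (emb9 M), 1 - d ^ 2 / 8, by linarith, fun x y hx hy h => ?_⟩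
  have h1 : dist (emb9 (ver x)) (emb9 (ver y)) ≤ d :=
    (Metric.dist_le_diam_of_mem (S9_bounded.subset Set.inter_subset_left)
      (s := S9 ∩ c ⁻¹' {c (emb9 (ver y))}) ⟨⟨x, hx, rfl⟩, h⟩ ⟨⟨y, hy, rfl⟩, rfl⟩).trans
      (hi₀ _ (Finset.mem_univ _))
  have h2 : dist (emb9 (ver x)) (emb9 (ver y)) ^ 2 ≤ d ^ 2 := by gcongr
  have h3 := dist_emb9 hx hy
  have h4 := mul_pos (dot_self_pos hx) (dot_self_pos hy)
  nlinarith [mul_le_mul_of_nonneg_right h2 h4.le]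

end Crest.Agent.R50
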