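import Crest.Agent.R50.PartB

/-!
The block labellings of the three projective spaces of a flag and the local separating functionals.
-/

set_option autoImplicit false
set_option maxHeartbeats 400000

namespace Crest.Agent.R50

open Crest.Agent.Mod2Chain MvPolynomial Filter

def jj (j : Fin 3) : Fin 4 := j.castSucc

def idx : Fin 3 → Fin 4 → Fin 10 := ![![0, 1, 2, 3], ![4, 4, 5, 6], ![7, 7, 7, 8]]

def Jv (j : Fin 3) : Finset (Fin 4) := Finset.univ.filter fun i => jj j ≤ i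

def Jv' (j : Fin 3) : Finset (Fin 4) := Finset.univ.filter fun i => jj j < i

def emb (j : Fin 3) (y : Fin 4 × Bool) : Fin 10 × Bool := (idx j y.1, y.2)

def rho (j : Fin 3) (M : E) : V :=
  ![![2 * (M 0 + M 9) - 1, M 1, M 2, M 3], ![0, 2 * (M 4 + M 9) - 1, M 5, M 6],
    ![0, 0, 2 * (M 7 + M 9) - 1, M 8]] j

def F1 (j : Fin 3) (M : E) : E :=
  ![![2 * (M 0 + M 9) - 1, M 1, M 2, M 3, 0, 0, 0, 0, 0, 1 - M 0 - M 9],
    ![-(1 - M 4 - M 9), 0, 0, 0, 2 * (M 4 + M 9) - 1, M 5, M 6, 0, 0, 1 - M 4 - M 9], M] j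

/-- the subspace of the flag -/
def Sub (j : Fin 3) : Set V := {x | ∀ i < jj j, x i = 0}

def VerJ (j : Fin 3) : Set E := ver '' {x | dot x x = 1 ∧ x ∈ Sub j}

theorem Jv_eq (j : Fin 3) : Jv j = insert (jj j) (Jv' j) := by
  revert j; decide

theorem jj_notMem (j : Fin 3) : jj j ∉ Jv' j := by simp [Jv']

theorem Jv'_nonempty (j : Fin 3) : (Jv' j).Nonempty := by
  revert j; decide

theorem mem_Jv {j : Fin 3} {i : Fin 4} : i ∈ Jv j ↔ jj j ≤ i := by simp [Jv]

theorem mem_Jv' {j : Fin 3} {i : Fin 4} : i ∈ Jv' j ↔ jj j < i := by simp [Jv']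

theorem continuous_rho (j : Fin 3) : Continuous (rho j) := by
  fin_cases j <;> (unfold rho; simp; fun_prop)

theorem continuous_F1 (j : Fin 3) : Continuous (F1 j) := by
  fin_cases j <;> (unfold F1; simp; try fun_prop)

theorem rho_lt (j : Fin 3) (M : E) {i : Fin 4} (h : i < jj j) : rho j M i = 0 := by
  fin_cases j <;> fin_cases i <;> simp_all [rho, jj]

theorem rho_ver_self (j : Fin 3) (x : V) :
    rho j (ver x) (jj j) = 2 * ((dot x x)⁻¹ * x (jj j) ^ 2) - 1 := by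
  fin_cases j <;> simp [rho, jj, ver] <;> ring

theorem rho_ver_gt (j : Fin 3) (x : V) {i : Fin 4} (h : jj j < i) :
    rho j (ver x) i = (dot x x)⁻¹ * (x (jj j) * x i) := by
  fin_cases j <;> fin_cases i <;> simp_all [rho, jj, ver]

theorem ver_unit {x : V} (h : dot x x = 1) : ver x = ![x 0 ^ 2 - x 3 ^ 2, x 0 * x 1, x 0 * x 2,
    x 0 * x 3, x 1 ^ 2 - x 3 ^ 2, x 1 * x 2, x 1 * x 3, x 2 ^ 2 - x 3 ^ 2, x 2 * x 3, x 3 ^ 2] := by
  rw [ver, h, inv_one, one_smul]

theorem ver_smul {c : ℝ} (hc : c ≠ 0) (x : V) : ver (c • x) = ver x := by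
  have h : dot (c • x) (c • x) = c ^ 2 * dot x x := by
    simp only [dot, Pi.smul_apply, smul_eq_mul]; ring
  ext i
  fin_cases i <;> simp [ver, h] <;> field_simp

theorem ver_mem_VerJ {j : Fin 3} {x : V} (h0 : x ≠ 0) (hx : x ∈ Sub j) : ver x ∈ VerJ j := by
  have hpos := dot_self_pos h0
  set c := (Real.sqrt (dot x x))⁻¹ with hc
  have hc2 : c * c * dot x x = 1 := by
    rw [hc, ← mul_inv, Real.mul_self_sqrt hpos.le, inv_mul_cancel₀ hpos.ne']
  refine ⟨c • x, ⟨?_, fun i hi => by simp [hx i hi]⟩, ver_smul ?_ x⟩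
  · rw [← hc2]; simp only [dot, Pi.smul_apply, smul_eq_mul]; ring
  · rintro h; rw [h] at hc2; simp at hc2

theorem isCompact_unit : IsCompact {u : V | dot u u = 1} := by
  refine Metric.isCompact_of_isClosed_isBounded
    (isClosed_eq (by unfold dot; fun_prop) continuous_const) ?_
  refine (Metric.isBounded_closedBall (x := (0 : V)) (r := 1)).subset fun u hu => ?_
  rw [mem_closedBall_zero_iff, pi_norm_le_iff_of_nonneg zero_le_one]
  exact fun i => abs_coord_le hu i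

theorem isCompact_VerJ (j : Fin 3) : IsCompact (VerJ j) := by
  refine IsCompact.image_of_continuousOn (isCompact_unit.inter_right ?_) fun x hx =>
    (continuousAt_ver (ne_zero_of_dot_one hx.1)).continuousWithinAt
  have : Sub j = ⋂ i, ⋂ _ : i < jj j, {x : V | x i = 0} := by ext x; simp [Sub]
  show IsClosed (Sub j)
  rw [this]
  exact isClosed_iInter fun i => isClosed_iInter fun _ =>
    isClosed_eq (continuous_apply i) continuous_const

theorem VerJ_nonempty (j : Fin 3) : (VerJ j).Nonempty :=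
  ⟨_, Pi.single 3 1, ⟨dot_single 3, fun i hi => by
    have : i ≠ 3 := by rintro rfl; revert j; decide
    simp [this]⟩, rfl⟩

theorem dot_rho_ge {j : Fin 3} {M : E} (h : M ∈ VerJ j) : 1 / 4 ≤ dot (rho j M) (rho j M) := by
  obtain ⟨x, ⟨h1, h2⟩, rfl⟩ := h
  have h1' := h1
  simp only [dot] at h1'
  fin_cases j
  · simp [rho, ver, dot, h1']
    nlinarith [sq_nonneg (x 0 ^ 2 - 1 / 2)]
  · have h3 : x 0 = 0 := h2 0 (by decide)
    simp [rho, ver, dot, h1']
    rw [h3] at h1'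
    nlinarith [sq_nonneg (x 1 ^ 2 - 1 / 2)]
  · have h3 : x 0 = 0 := h2 0 (by decide)
    have h4 : x 1 = 0 := h2 1 (by decide)
    simp [rho, ver, dot, h1']
    rw [h3, h4] at h1'
    nlinarith [sq_nonneg (x 2 ^ 2 - 1 / 2)]

theorem exists_argmax (j : Fin 3) (M : E) :
    ∃ a ∈ Jv j, ∀ i ∈ Jv j, |rho j M i| ≤ |rho j M a| :=
  Finset.exists_max_image _ (fun i => |rho j M i|) ⟨jj j, mem_Jv.2 le_rfl⟩

/-- the signed coordinate of largest modulus in the block -/
noncomputable def ell (j : Fin 3) (M : E) : Fin 4 × Bool :=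
  ((exists_argmax j M).choose, decide (0 < rho j M (exists_argmax j M).choose))

theorem ell_mem (j : Fin 3) (M : E) : (ell j M).1 ∈ Jv j := (exists_argmax j M).choose_spec.1

theorem ell_snd (j : Fin 3) (M : E) : (ell j M).2 = decide (0 < rho j M (ell j M).1) := rfl

theorem ell_ge {j : Fin 3} {M : E} (h : M ∈ VerJ j) : 1 / 4 ≤ |rho j M (ell j M).1| := by
  have h1 : ∀ i, |rho j M i| ≤ |rho j M (ell j M).1| := by
    intro i
    by_cases hi : i ∈ Jv j
    · exact (exists_argmax j M).choose_spec.2 i hi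
    · rw [rho_lt j M (by simpa [mem_Jv] using hi), abs_zero]; exact abs_nonneg _
  have h2 := dot_rho_ge h
  have h3 : ∀ i, rho j M i * rho j M i ≤ |rho j M (ell j M).1| * |rho j M (ell j M).1| := by
    intro i
    rw [← abs_mul_abs_self]
    exact mul_self_le_mul_self (abs_nonneg _) (h1 i)
  simp only [dot] at h2
  have := abs_nonneg (rho j M (ell j M).1)
  nlinarith [h3 0, h3 1, h3 2, h3 3]

/-- the signed value of a vector at a label -/
def sv (y : Fin 4 × Bool) (r : V) : ℝ := if y.2 then r y.1 else - r y.1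

theorem sv_flipL (y : Fin 4 × Bool) (r : V) : sv (flipL y) r = - sv y r := by
  obtain ⟨a, b⟩ := y
  cases b <;> simp [sv, flipL]

theorem sv_ell_pos {j : Fin 3} {M : E} (h : M ∈ VerJ j) {r : V} (hr : dist (rho j M) r < 1 / 4) :
    0 < sv (ell j M) r := by
  have h1 := ell_ge h
  have h2 := (dist_le_pi_dist (rho j M) r (ell j M).1).trans_lt hr
  rw [Real.dist_eq, abs_lt] at h2
  rw [sv, ell_snd]
  by_cases h3 : 0 < rho j M (ell j M).1
  · rw [abs_of_pos h3] at h1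
    simp only [h3, decide_true, if_true]; linarith
  · rw [abs_of_nonpos (not_lt.1 h3)] at h1
    simp only [h3, decide_false, Bool.false_eq_true, if_false]; linarith

/-- the local positivity conditions -/
def Loc (N₁ N₂ : E →ₗ[ℝ] ℝ) (j : Fin 3) (M : E) : Prop :=
  0 < N₁ M ∧ 0 < N₁ (F1 j M) ∧ 0 < N₂ (F1 j M) ∧ 0 < N₂ (pt (emb j (ell j M)))

theorem idf_notMem_span {x y z : V} (hx : dot x x = 1) (hy : dot y y = 1) (hz : dot z z = 1)
    (y0 : y 0 = 0) (z0 : z 0 = 0) (z1 : z 1 = 0) :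
    idf ∉ Submodule.span ℝ (Set.range ![ver x, F1 0 (ver x), ver y, F1 1 (ver y), ver z]) := by
  rw [Submodule.mem_span_range_iff_exists_fun]
  rintro ⟨c, hc⟩
  have e := fun i => congrFun hc i
  have e0 := e 0
  have e1 := e 1
  have e2 := e 2
  have e3 := e 3
  have e4 := e 4
  have e5 := e 5
  have e6 := e 6
  have e7 := e 7
  have e8 := e 8
  have e9 := e 9
  simp [Fin.sum_univ_five, ver, F1, idf, hx, hy, hz, y0, z0, z1] at e0 e1 e2 e3 e4 e5 e6 e7 e8 e9
  simp only [dot] at hx hy hz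
  have a0 : (c 0 + c 1) * x 0 * x 0 = 1 := by linear_combination e0 + e9
  have a0' : (c 0 + c 1) * x 0 ≠ 0 := by
    intro h; rw [h] at a0; simp at a0
  have x1 : x 1 = 0 := (mul_eq_zero.1 (by linear_combination e1 : (c 0 + c 1) * x 0 * x 1 = 0)
    ).resolve_left a0'
  have x2 : x 2 = 0 := (mul_eq_zero.1 (by linear_combination e2 : (c 0 + c 1) * x 0 * x 2 = 0)
    ).resolve_left a0'
  have x3 : x 3 = 0 := (mul_eq_zero.1 (by linear_combination e3 : (c 0 + c 1) * x 0 * x 3 = 0)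
    ).resolve_left a0'
  have x0 : x 0 ^ 2 = 1 := by rw [x1, x2, x3] at hx; linear_combination hx
  rw [x1, x3] at e4 e6
  rw [x1] at e5
  rw [x2, x3] at e7 e8
  rw [x3, x0] at e9
  have a1 : (c 2 + c 3) * y 1 * y 1 = 1 := by linear_combination e4 + e9
  have a1' : (c 2 + c 3) * y 1 ≠ 0 := by
    intro h; rw [h] at a1; simp at a1
  have y2 : y 2 = 0 := (mul_eq_zero.1 (by linear_combination e5 : (c 2 + c 3) * y 1 * y 2 = 0)
    ).resolve_left a1'
  have y3 : y 3 = 0 := (mul_eq_zero.1 (by linear_combination e6 : (c 2 + c 3) * y 1 * y 3 = 0)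
    ).resolve_left a1'
  have y1 : y 1 ^ 2 = 1 := by rw [y0, y2, y3] at hy; linear_combination hy
  rw [y2, y3] at e7 e8
  rw [y3, y1] at e9
  have a2 : c 4 * z 2 * z 2 = 1 := by linear_combination e7 + e9
  have a2' : c 4 * z 2 ≠ 0 := by
    intro h; rw [h] at a2; simp at a2
  have z3 : z 3 = 0 := (mul_eq_zero.1 (by linear_combination e8 : c 4 * z 2 * z 3 = 0)
    ).resolve_left a2'
  rw [z3] at e9
  norm_num at e9

/-- the trace as a linear functional -/
def trL : E →ₗ[ℝ] ℝ where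
  toFun := tr
  map_add' := tr_add
  map_smul' := tr_smul

/-- the block functional -/
def blockL (r : Fin 3 → V) : E →ₗ[ℝ] ℝ where
  toFun M := r 0 0 * M 0 + r 0 1 * M 1 + r 0 2 * M 2 + r 0 3 * M 3 +
    8 * (r 1 1 * M 4 + r 1 2 * M 5 + r 1 3 * M 6) + 64 * (r 2 2 * M 7 + r 2 3 * M 8)
  map_add' := by intro M M'; simp only [Pi.add_apply]; ring
  map_smul' := by intro a M; simp only [Pi.smul_apply, smul_eq_mul, RingHom.id_apply]; ring

theorem blockL_pt (r : Fin 3 → V) (j : Fin 3) (y : Fin 4 × Bool) (hy : y.1 ∈ Jv j) :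
    blockL r (pt (emb j y)) = 8 ^ (j : ℕ) * sv y (r j) := by
  obtain ⟨a, b⟩ := y
  rw [mem_Jv] at hy
  fin_cases j <;> fin_cases a <;> cases b <;> simp_all [blockL, pt, emb, idx, sv, jj] <;> norm_num

theorem loc_at {k : Fin 3 → E} (hk : ∀ j, k j ∈ VerJ j) :
    ∃ N₁ N₂ : E →ₗ[ℝ] ℝ, N₁ idf = 0 ∧ N₂ idf = 0 ∧
      ∃ δ > 0, ∀ j M, M ∈ VerJ j → dist M (k j) < δ → Loc N₁ N₂ j M := by
  obtain ⟨x, ⟨hx, -⟩, ex⟩ := hk 0
  obtain ⟨y, ⟨hy, hy'⟩, ey⟩ := hk 1
  obtain ⟨z, ⟨hz, hz'⟩, ez⟩ := hk 2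
  have y0 : y 0 = 0 := hy' 0 (by decide)
  have z0 : z 0 = 0 := hz' 0 (by decide)
  have z1 : z 1 = 0 := hz' 1 (by decide)
  obtain ⟨Q, hQ1, hQ2⟩ := Submodule.exists_dual_map_eq_bot_of_notMem
    (idf_notMem_span hx hy hz y0 z0 z1) inferInstance
  have hQ : ∀ i, Q (![ver x, F1 0 (ver x), ver y, F1 1 (ver y), ver z] i) = 0 := by
    intro i
    have : Q (![ver x, F1 0 (ver x), ver y, F1 1 (ver y), ver z] i) ∈ (⊥ : Submodule ℝ ℝ) := by
      rw [← hQ2]
      exact Submodule.mem_map_of_mem (Submodule.subset_span ⟨i, rfl⟩)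
    simpa using this
  have q0 : Q (ver x) = 0 := hQ 0
  have q1 : Q (F1 0 (ver x)) = 0 := hQ 1
  have q2 : Q (ver y) = 0 := hQ 2
  have q3 : Q (F1 1 (ver y)) = 0 := hQ 3
  have q4 : Q (ver z) = 0 := hQ 4
  let N₁ : E →ₗ[ℝ] ℝ := trL - (4 / Q idf) • Q
  let N₂ : E →ₗ[ℝ] ℝ := blockL fun j => rho j (k j)
  have hN₁ : ∀ M, N₁ M = tr M - 4 / Q idf * Q M := fun M => rfl
  have p1 : ∀ j, 0 < N₁ (k j) := by
    intro j
    fin_cases j
    · show 0 < N₁ (k 0)
      rw [← ex, hN₁, q0, tr_ver (ne_zero_of_dot_one hx)]; norm_num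
    · show 0 < N₁ (k 1)
      rw [← ey, hN₁, q2, tr_ver (ne_zero_of_dot_one hy)]; norm_num
    · show 0 < N₁ (k 2)
      rw [← ez, hN₁, q4, tr_ver (ne_zero_of_dot_one hz)]; norm_num
  have bx := abs_le.1 (abs_coord_le hx 0)
  have by' := abs_le.1 (abs_coord_le hy 1)
  have bz := abs_le.1 (abs_coord_le hz 3)
  have p2 : ∀ j, 0 < N₁ (F1 j (k j)) := by
    intro j
    fin_cases j
    · show 0 < N₁ (F1 0 (k 0))
      rw [← ex, hN₁, q1]
      simp [tr, F1, ver, hx]; nlinarith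
    · show 0 < N₁ (F1 1 (k 1))
      rw [← ey, hN₁, q3]
      simp [tr, F1, ver, hy]; nlinarith
    · exact p1 2
  have r0 := dot_rho_ge (hk 0)
  have r1 := dot_rho_ge (hk 1)
  have r2 := dot_rho_ge (hk 2)
  have s0 : |rho 0 (k 0) 0| ≤ 1 := by
    rw [← ex, abs_le]; simp [rho, ver, hx]; constructor <;> nlinarith
  have s1 : |rho 1 (k 1) 1| ≤ 1 := by
    rw [← ey, abs_le]; simp [rho, ver, hy]; constructor <;> nlinarith
  have p3 : ∀ j, 0 < N₂ (F1 j (k j)) := by
    intro j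
    fin_cases j
    · show 0 < N₂ (F1 0 (k 0))
      have : N₂ (F1 0 (k 0)) = dot (rho 0 (k 0)) (rho 0 (k 0)) := by
        simp [N₂, blockL, F1, rho, dot]
      linarith
    · show 0 < N₂ (F1 1 (k 1))
      have : N₂ (F1 1 (k 1)) = 8 * dot (rho 1 (k 1)) (rho 1 (k 1)) -
          rho 0 (k 0) 0 * (1 - y 1 ^ 2) := by
        simp only [N₂, blockL, LinearMap.coe_mk, AddHom.coe_mk]
        rw [← ey, ver_unit hy]
        simp [F1, rho, dot]; ring
      rw [this]
      have := abs_le.1 s0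
      have t1 : 0 ≤ 1 - y 1 ^ 2 := by nlinarith
      have t2 : rho 0 (k 0) 0 * (1 - y 1 ^ 2) ≤ 1 * (1 - y 1 ^ 2) := by gcongr; exact this.2
      nlinarith [sq_nonneg (y 1)]
    · show 0 < N₂ (F1 2 (k 2))
      have : N₂ (F1 2 (k 2)) = 64 * dot (rho 2 (k 2)) (rho 2 (k 2)) -
          (rho 0 (k 0) 0 + 8 * rho 1 (k 1) 1) * z 3 ^ 2 := by
        simp only [N₂, blockL, LinearMap.coe_mk, AddHom.coe_mk]
        rw [← ez, ver_unit hz]
        have hz2 : z 2 ^ 2 = 1 - z 3 ^ 2 := by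
          simp only [dot, z0, z1] at hz; linear_combination hz
        simp [F1, rho, dot, z0, z1, hz2]; ring
      rw [this]
      have t0 := abs_le.1 s0
      have t1 := abs_le.1 s1
      have t2 : z 3 ^ 2 ≤ 1 := by nlinarith
      have t3 : (rho 0 (k 0) 0 + 8 * rho 1 (k 1) 1) * z 3 ^ 2 ≤ 9 * z 3 ^ 2 := by
        gcongr; linarith
      linarith
  have hev : ∀ j, ∀ᶠ M in nhds (k j), M ∈ VerJ j → Loc N₁ N₂ j M := by
    intro j
    have c1 := N₁.continuous_of_finiteDimensional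
    have c2 := N₂.continuous_of_finiteDimensional
    filter_upwards [c1.continuousAt.eventually (lt_mem_nhds (p1 j)),
      (c1.comp (continuous_F1 j)).continuousAt.eventually (lt_mem_nhds (p2 j)),
      (c2.comp (continuous_F1 j)).continuousAt.eventually (lt_mem_nhds (p3 j)),
      (continuous_rho j).continuousAt.eventually
        (Metric.ball_mem_nhds (rho j (k j)) (by norm_num : (0 : ℝ) < 1 / 4))] with M a b c d hM
    refine ⟨a, b, c, ?_⟩
    rw [blockL_pt _ _ _ (ell_mem j M)]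
    exact mul_pos (by positivity) (sv_ell_pos hM d)
  refine ⟨N₁, N₂, by rw [hN₁, tr_idf]; field_simp; ring, by simp [N₂, blockL, idf], ?_⟩
  obtain ⟨δ0, h0, g0⟩ := Metric.eventually_nhds_iff.1 (hev 0)
  obtain ⟨δ1, h1, g1⟩ := Metric.eventually_nhds_iff.1 (hev 1)
  obtain ⟨δ2, h2, g2⟩ := Metric.eventually_nhds_iff.1 (hev 2)
  refine ⟨min δ0 (min δ1 δ2), by positivity, fun j M hM hd => ?_⟩
  rw [lt_min_iff, lt_min_iff] at hd
  fin_cases j
  · exact g0 hd.1 hM
  · exact g1 hd.2.1 hM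
  · exact g2 hd.2.2 hM

theorem loc_uniform : ∃ δ > 0, ∀ k : Fin 3 → E, (∀ j, k j ∈ VerJ j) →
    ∃ N₁ N₂ : E →ₗ[ℝ] ℝ, N₁ idf = 0 ∧ N₂ idf = 0 ∧
      ∀ j M, M ∈ VerJ j → dist M (k j) < δ → Loc N₁ N₂ j M := by
  classical
  have hK : IsCompact (Set.pi Set.univ VerJ) := isCompact_univ_pi isCompact_VerJ
  choose N₁ N₂ h1 h2 δ hδ h3 using fun k : Set.pi Set.univ VerJ => loc_at fun j => k.2 j trivial
  obtain ⟨ε, hε, h⟩ := lebesgue_number_lemma_of_metric hK
    (c := fun k : Set.pi Set.univ VerJ => Metric.ball k.1 (δ k)) (fun _ => Metric.isOpen_ball)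
    (fun k hk => Set.mem_iUnion.2 ⟨⟨k, hk⟩, Metric.mem_ball_self (hδ _)⟩)
  refine ⟨ε, hε, fun k hk => ?_⟩
  obtain ⟨k₀, hb⟩ := h k fun j _ => hk j
  refine ⟨N₁ k₀, N₂ k₀, h1 k₀, h2 k₀, fun j M hM hd => h3 k₀ j M hM ?_⟩
  have : Function.update k j M ∈ Metric.ball k ε := by
    rw [Metric.mem_ball, dist_pi_lt_iff hε]
    intro i
    by_cases hi : i = j
    · subst hi; simpa using hd
    · simpa [Function.update_of_ne hi] using hε
  have h4 := (dist_le_pi_dist _ _ j).trans_lt (Metric.mem_ball.1 (hb this))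
  simpa using h4

end Crest.Agent.R50
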