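import Crest.Agent.R50.PartA1

/-!
The fine cycles of the three projective spaces of the flag and their block degrees.
-/

set_option autoImplicit false
set_option maxHeartbeats 400000

namespace Crest.Agent.R50

open Crest.Agent.Mod2Chain MvPolynomial Filter

theorem prod_X_mem {Y ι : Type*} {W : Set Y} (t : Finset ι) (f : ι → Y) (h : ∀ i ∈ t, f i ∈ W) :
    (∏ i ∈ t, X (f i) : P Y) ∈ Ch (fun s => s ⊆ W) t.card := by
  classical
  induction t using Finset.induction_on with
  | empty => exact one_mem_Ch (Set.empty_subset _)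
  | insert i t hi ih =>
    rw [Finset.prod_insert hi, Finset.card_insert_of_notMem hi, add_comm]
    exact Ch.mul (S₁ := fun s => s ⊆ W) (fun s t => Set.union_subset)
      (X_mem_Ch (by simpa using h i (by simp))) (ih fun j hj => h j (by simp [hj]))

theorem rename_even_zc {Y : Type*} (f : V → Y) (hf : ∀ x, f (-x) = f x) {J : Finset (Fin 4)}
    (hJ : J.Nonempty) (k : ℕ) : rename f ((sd ^ k) (rename pt (zc J))) = 0 := by
  obtain ⟨i, hi⟩ := hJ
  have h1 : zc J = X (i, true) * zc (J.erase i) + rename flipL (X (i, true) * zc (J.erase i)) := by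
    rw [map_mul, rename_flipL_zc, rename_X, ← add_mul, zc, zc, ← Finset.mul_prod_erase _ _ hi]
    rfl
  rw [h1, map_add, map_add, map_add, rename_rename flipL,
    show pt ∘ flipL = (fun x : V => -x) ∘ pt from funext fun y => pt_flipL y,
    ← rename_rename, ← rename_neg_sd_pow, rename_rename,
    show f ∘ (fun x : V => -x) = f from funext hf, add_self]

/-- the coarse hemisphere of the `j`-th subspace -/
noncomputable def alpha (j : Fin 3) : P V := rename pt (X (jj j, true) * zc (Jv' j))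

theorem card_Jv (j : Fin 3) : (Jv j).card = 1 + (Jv' j).card := by
  rw [Jv_eq, Finset.card_insert_of_notMem (jj_notMem j), add_comm]

theorem convex_Sub (j : Fin 3) : Convex ℝ (Sub j) := by
  intro x hx y hy a b _ _ _ i hi
  simp [hx i hi, hy i hi]

theorem hull_pt_Sub {j : Fin 3} {s : Set (Fin 4 × Bool)} (hs : NCJ (Jv j) s) :
    convexHull ℝ (pt '' s) ⊆ {x | x ≠ 0 ∧ x ∈ Sub j} := by
  intro x hx
  refine ⟨hull_pt_ne_zero hs.1 hx, convexHull_min ?_ (convex_Sub j) hx⟩
  rintro _ ⟨y, hy, rfl⟩ i hi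
  have := mem_Jv.1 (hs.2 y hy)
  exact Pi.single_eq_of_ne (hi.trans_le this).ne _

theorem alpha_mem (j : Fin 3) :
    alpha j ∈ Ch (fun s => convexHull ℝ s ⊆ {x | x ≠ 0 ∧ x ∈ Sub j}) (Jv j).card := by
  refine Ch.rename pt (fun s hs => hull_pt_Sub hs) ?_
  rw [card_Jv, Jv_eq]
  exact Ch.mul (NCJ_insert (jj_notMem j) true) (X_mem_Ch rfl) (zc_mem _)

theorem bd_alpha (j : Fin 3) : bd (alpha j) = rename pt (zc (Jv' j)) := by
  rw [alpha, bd_rename, bd_X_mul, bd_zc, mul_zero, add_zero]

namespace Data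

variable (D : Data)

/-- the fine cover of the `j`-th subspace -/
def covJ (δ : ℝ) (j : Fin 3) : Set (Set V) :=
  {U | U ∈ D.covV ∧ ∃ k ∈ VerJ j, ∀ p ∈ U, dist (ver p) k < δ ∧
    dist (rho j (ver p)) (rho j k) < 1 / 4}

theorem covJ_covers {δ : ℝ} (hδ : 0 < δ) (j : Fin 3) :
    {x | x ≠ 0 ∧ x ∈ Sub j} ⊆ ⋃₀ D.covJ δ j := by
  rintro x ⟨h0, hx⟩
  have h1 : ∀ᶠ p in nhds x, dist (ver p) (ver x) < δ :=
    (continuousAt_ver h0).eventually (Metric.ball_mem_nhds _ hδ)
  have h2 : ∀ᶠ p in nhds x, dist (rho j (ver p)) (rho j (ver x)) < 1 / 4 :=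
    ((continuous_rho j).continuousAt.comp (continuousAt_ver h0)).eventually
      (Metric.ball_mem_nhds _ (by norm_num))
  obtain ⟨r, hr, h3, h4⟩ := D.exists_ball h0 (h1.and h2)
  exact ⟨_, ⟨h3, ver x, ver_mem_VerJ h0 hx, fun p hp => h4 hp⟩, Metric.mem_ball_self hr⟩

/-- fine simplices of the `j`-th subspace -/
def Fine (δ : ℝ) (j : Fin 3) (s : Set V) : Prop :=
  convexHull ℝ s ⊆ {x | x ≠ 0 ∧ x ∈ Sub j} ∧ Small (D.covJ δ j) s

theorem Fine.small {D : Data} {δ : ℝ} {j : Fin 3} {s : Set V} (h : D.Fine δ j s) :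
    Small D.covV s := fun hne => by
  obtain ⟨U, hU, h1⟩ := h.2 hne
  exact ⟨U, hU.1, h1⟩

theorem Fine.nc {D : Data} {δ : ℝ} {j : Fin 3} {s : Set V} (h : D.Fine δ j s) :
    NCJ (Jv j) ((fun x => ell j (ver x)) '' s) := by
  refine ⟨?_, by rintro _ ⟨x, -, rfl⟩; exact ell_mem j _⟩
  rintro _ ⟨x, hx, rfl⟩ ⟨y, hy, e⟩
  obtain ⟨U, ⟨-, k, -, h1⟩, hU⟩ := h.2 ⟨x, hx⟩
  have hx' := h.1 (subset_convexHull ℝ s hx)
  have hy' := h.1 (subset_convexHull ℝ s hy)
  have a1 := sv_ell_pos (ver_mem_VerJ hx'.1 hx'.2) (h1 x (hU hx)).2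
  have a2 := sv_ell_pos (ver_mem_VerJ hy'.1 hy'.2) (h1 y (hU hy)).2
  simp only at e
  rw [e, sv_flipL] at a2
  linarith

theorem Fine.data {D : Data} {δ : ℝ} {j : Fin 3} {s : Set V} (h : D.Fine δ j s) :
    ∃ k ∈ VerJ j, ∃ x : V, ∀ p ∈ s, p ≠ 0 ∧ ver p ∈ VerJ j ∧ dist (ver p) k < δ ∧
      ∀ u, dot u u = 1 → dot x u = 0 → bil (ver p) u u ≤ D.e / 8 := by
  rcases s.eq_empty_or_nonempty with rfl | hne
  · obtain ⟨k, hk⟩ := VerJ_nonempty j
    exact ⟨k, hk, 0, by simp⟩
  · obtain ⟨U, ⟨⟨-, -, -, x, h1⟩, k, hk, h2⟩, hU⟩ := h.2 hne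
    refine ⟨k, hk, x, fun p hp => ?_⟩
    have := h.1 (subset_convexHull ℝ s hp)
    exact ⟨this.1, ver_mem_VerJ this.1 this.2, (h2 p (hU hp)).1, h1 p (hU hp)⟩

end Data

/-- a Sperner labelling obtained from the block labelling on the positive orthant -/
noncomputable def ell2 (j : Fin 3) (x : V) : Fin 4 × Bool := by
  classical
  exact if ell j (ver x) = (jj j, false) then
    (if h : ∃ i, jj j < i ∧ 0 < x i then (h.choose, true) else (jj j, false)) else ell j (ver x)

theorem ell2_sperner (j : Fin 3) (s : Set (Fin 4 × Bool)) (hs : ∀ y ∈ s, y.1 ∈ Jv j ∧ y.2 = true)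
    (x : V) (hx : x ∈ convexHull ℝ (pt '' s)) : ell2 j x ∈ s := by
  classical
  have hnc : NCJ (Jv j) s := ⟨fun y hy h => by
    have h1 := (hs _ h).2
    have h2 := (hs _ hy).2
    simp [flipL, h2] at h1, fun y hy => (hs y hy).1⟩
  obtain ⟨h0, hsub⟩ := hull_pt_Sub hnc hx
  have hnn : ∀ a, 0 ≤ x a := by
    intro a
    refine convexHull_min (t := {x : V | 0 ≤ x a}) ?_ ?_ hx
    · rintro _ ⟨y, hy, rfl⟩
      simp only [pt, (hs y hy).2, if_true, Set.mem_ofPred_eq, Pi.single_apply]
      split_ifs <;> norm_num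
    · intro u hu v hv a b ha hb _
      simp only [Set.mem_ofPred_eq, Pi.add_apply, Pi.smul_apply, smul_eq_mul] at hu hv ⊢
      positivity
  have hz : ∀ a, x a ≠ 0 → (a, true) ∈ s := by
    intro a ha
    by_contra h
    apply ha
    refine convexHull_min (t := {x : V | x a = 0}) ?_ ?_ hx
    · rintro _ ⟨y, hy, rfl⟩
      refine Pi.single_eq_of_ne ?_ _
      rintro rfl
      exact h (by rwa [← (hs y hy).2])
    · intro u hu v hv a b _ _ _
      simp only [Set.mem_ofPred_eq, Pi.add_apply, Pi.smul_apply, smul_eq_mul] at hu hv ⊢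
      simp [hu, hv]
  have hpos := dot_self_pos h0
  have hge := ell_ge (ver_mem_VerJ h0 hsub)
  unfold ell2
  split_ifs with h1 h2
  · exact hz _ h2.choose_spec.2.ne'
  · exfalso
    push Not at h2
    have h3 : ∀ i, i ≠ jj j → x i = 0 := fun i hi => by
      rcases lt_or_gt_of_ne hi with h | h
      · exact hsub i h
      · exact le_antisymm (h2 i h) (hnn i)
    have h4 : dot x x = x (jj j) ^ 2 := by
      have a0 := h3 0
      have a1 := h3 1
      have a2 := h3 2
      have a3 := h3 3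
      fin_cases j <;> simp_all [dot, jj] <;> ring
    have h5 := ell_snd j (ver x)
    rw [h1] at h5
    simp only [rho_ver_self] at h5
    rw [← h4, inv_mul_cancel₀ hpos.ne'] at h5
    norm_num at h5
  · have h5 := ell_snd j (ver x)
    have h6 := mem_Jv.1 (ell_mem j (ver x))
    generalize ell j (ver x) = y at h1 h5 h6 hge
    obtain ⟨a, b⟩ := y
    simp only at h5 h6 hge
    rcases h6.eq_or_lt with rfl | h7
    · have hb : b = true := by
        cases b
        · exact absurd rfl h1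
        · rfl
      subst hb
      refine hz _ fun h => ?_
      rw [rho_ver_self, h] at h5
      norm_num at h5
    · rw [rho_ver_gt j x h7] at h5 hge
      have h8 : 0 ≤ (dot x x)⁻¹ * (x (jj j) * x a) :=
        mul_nonneg (inv_nonneg.2 hpos.le) (mul_nonneg (hnn _) (hnn _))
      rw [abs_of_nonneg h8] at hge
      have h9 : 0 < (dot x x)⁻¹ * (x (jj j) * x a) := by linarith
      rw [decide_eq_true h9] at h5
      subst h5
      refine hz _ fun h => ?_
      rw [h] at h9; simp at h9

theorem coeff_eq_zero_of_notMem {Y : Type*} {p : P Y} {n : ℕ} {y : Y}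
    (hp : p ∈ Ch (fun s => y ∉ s) n) {m : Y →₀ ℕ} (hm : y ∈ m.support) : coeff m p = 0 := by
  by_contra h
  exact (hp m h).1 hm

theorem Data.block (D : Data) {δ : ℝ} (hδ : 0 < δ) (j : Fin 3) :
    ∀ᶠ m in atTop, (sd ^ m) (alpha j) ∈ Ch (D.Fine δ j) (Jv j).card ∧
      rename (fun x => ell j (ver x)) ((sd ^ m) (alpha j)) + zc (Jv j) ∈ Deg _ := by
  classical
  have ho : ∀ U ∈ D.covJ δ j, IsOpen U := fun U hU => hU.1.1
  have hplus : (rename pt (monomial (plus (Jv j)) 1) : P V) ∈
      Ch (fun s => convexHull ℝ s ⊆ {x | x ≠ 0 ∧ x ∈ Sub j}) (Jv j).card := by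
    refine Ch.rename pt (fun s hs => hull_pt_Sub hs) ?_
    rw [← degree_plus]
    refine monomial_mem_Ch ⟨fun y hy h => ?_, fun y hy => ((mem_support_plus _ _).1 hy).1⟩
    have h1 := ((mem_support_plus _ _).1 hy).2
    have h2 := ((mem_support_plus _ _).1 h).2
    simp [flipL, h1] at h2
  filter_upwards [eventually_small' ho (D.covJ_covers hδ j) (alpha_mem j),
    eventually_small' ho (D.covJ_covers hδ j) hplus] with m h1 h2
  refine ⟨h1, top_cycle_eq (Ch.rename _ (fun s hs => Data.Fine.nc hs) h1) ?_ ?_⟩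
  · rw [bd_rename, bd_sd_pow, bd_alpha]
    exact rename_even_zc _ (fun x => by rw [ver_neg]) (Jv'_nonempty j) m
  · rw [alpha, zc, Finset.prod_add, Finset.mul_sum, map_sum, map_sum, map_sum, coeff_sum,
      Finset.sum_eq_single (Jv' j)]
    · rw [Finset.sdiff_self, Finset.prod_empty, mul_one, ← Finset.prod_insert (jj_notMem j)
        (f := fun i => (X (i, true) : P (Fin 4 × Bool))), ← Jv_eq, ← monomial_plus]
      refine Eq.trans ?_ (sperner (Jv j) pt (ell2 j) (ell2_sperner j) m)
      refine Sup.map_eq (lcoeff (ZMod 2) (plus (Jv j)) ∘ₗ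
          (rename (fun x => ell j (ver x)) : P V →ₐ[ZMod 2] P (Fin 4 × Bool)).toLinearMap)
        (lcoeff (ZMod 2) (plus (Jv j)) ∘ₗ
          (rename (ell2 j) : P V →ₐ[ZMod 2] P (Fin 4 × Bool)).toLinearMap) ?_ h2
      rintro μ ⟨hμ, -⟩
      have hnc := (Data.Fine.nc hμ).1
      simp only [LinearMap.comp_apply, AlgHom.toLinearMap_apply, lcoeff_apply]
      by_cases hc : ∀ x ∈ μ.support, ell j (ver x) ≠ (jj j, false)
      · congr 1
        refine rename_congr (monomial_mem_Ch (S := fun s => s = μ.support) rfl) ?_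
        rintro s rfl x hx
        simp only [ell2, if_neg (hc x hx)]
      · push Not at hc
        obtain ⟨x, hx, hx'⟩ := hc
        have e1 : coeff (plus (Jv j)) (rename (fun x => ell j (ver x)) (monomial μ 1 : P V)) = 0 := by
          rw [rename_monomial, coeff_monomial, if_neg]
          intro h
          have : (jj j, false) ∈ ((plus (Jv j)).support : Set (Fin 4 × Bool)) := by
            rw [← h, coe_support_mapDomain]; exact ⟨x, hx, hx'⟩
          rw [Finset.mem_coe, mem_support_plus] at this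
          simp at this
        have e2 : coeff (plus (Jv j)) (rename (ell2 j) (monomial μ 1 : P V)) = 0 := by
          refine coeff_eq_zero_of_notMem (y := (jj j, true)) (Ch.rename _ ?_
            (monomial_mem_Ch (S := fun s => s = μ.support) rfl))
            ((mem_support_plus _ _).2 ⟨mem_Jv.2 le_rfl, rfl⟩)
          rintro s rfl ⟨y, hy, h⟩
          unfold ell2 at h
          split_ifs at h with a1 a2
          · exact absurd (congrArg Prod.fst h) a2.choose_spec.1.ne'
          · simp at h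
          · exact hnc _ ⟨y, hy, h⟩ ⟨x, hx, hx'⟩
        rw [e1, e2]
    · intro t ht hne
      obtain ⟨i, hi, hit⟩ : ∃ i ∈ Jv' j, i ∉ t := by
        by_contra hcon
        push Not at hcon
        exact hne (Finset.Subset.antisymm (Finset.mem_powerset.1 ht) hcon)
      have hji := mem_Jv'.1 hi
      let W : Set (Fin 4 × Bool) := {y | y ≠ (jj j, false) ∧ y ≠ (i, true)}
      have hW : (X (jj j, true) * ((∏ i ∈ t, X (i, true)) * ∏ i ∈ Jv' j \ t, X (i, false)) :
          P (Fin 4 × Bool)) ∈ Ch (fun s => s ⊆ W) (1 + (t.card + (Jv' j \ t).card)) := by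
        refine Ch.mul (S₁ := fun s => s ⊆ W) (S₂ := fun s => s ⊆ W) (fun s t => Set.union_subset)
          (X_mem_Ch ?_) (Ch.mul (S₁ := fun s => s ⊆ W) (S₂ := fun s => s ⊆ W)
            (fun s t => Set.union_subset) (prod_X_mem _ _ ?_) (prod_X_mem _ _ ?_))
        · simp [W, hji.ne]
        · intro a ha
          simp only [W, Set.mem_ofPred_eq, ne_eq, Prod.mk.injEq, and_true]
          exact ⟨by simp, fun h => hit (h ▸ ha)⟩
        · intro a ha
          simp only [W, Set.mem_ofPred_eq, ne_eq, Prod.mk.injEq, and_true]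
          exact ⟨(mem_Jv'.1 (Finset.mem_sdiff.1 ha).1).ne', by simp⟩
      let Cn : Set V := {x | 0 ≤ x (jj j) ∧ x i ≤ 0}
      have hCn : Convex ℝ Cn := by
        rintro u ⟨hu, hu'⟩ v ⟨hv, hv'⟩ a b ha hb -
        simp only [Cn, Set.mem_ofPred_eq, Pi.add_apply, Pi.smul_apply, smul_eq_mul]
        exact ⟨by positivity, by nlinarith⟩
      refine coeff_eq_zero_of_notMem (y := (i, true)) (Ch.rename _ ?_
        (sd_pow_mem_convex hCn (Ch.rename pt ?_ hW) m))
        ((mem_support_plus _ _).2 ⟨mem_Jv.2 hji.le, rfl⟩)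
      · rintro s hs ⟨x, hx, h⟩
        have h5 := ell_snd j (ver x)
        simp only at h
        rw [h, rho_ver_gt j x hji] at h5
        have h6 : (dot x x)⁻¹ * (x (jj j) * x i) ≤ 0 :=
          mul_nonpos_of_nonneg_of_nonpos (inv_nonneg.2 (dot_self_nonneg x))
            (mul_nonpos_of_nonneg_of_nonpos (hs hx).1 (hs hx).2)
        simp [not_lt.2 h6] at h5
      · rintro s hs _ ⟨⟨a, b⟩, hy, rfl⟩
        obtain ⟨a1, a2⟩ := hs hy
        simp only [Cn, Set.mem_ofPred_eq, pt, Pi.single_apply]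
        constructor
        · split_ifs with c1 c2
          · norm_num
          · exact absurd (by rw [← c1]; simpa using c2) a1
          · exact le_rfl
        · split_ifs with c1 c2
          · exact absurd (by rw [← c1, c2]) a2
          · norm_num
          · exact le_rfl
    · intro h; exact absurd (Finset.mem_powerset_self _) h

end Crest.Agent.R50
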