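import Crest.Agent.R50.Quad
import Crest.Agent.R50.Comb

/-!
From the nonvanishing of the join degree to a signing of the colours whose double cover pulls back
to the sphere, and the final contradiction with the two-graph bound.
-/

set_option autoImplicit false
set_option maxHeartbeats 400000

namespace Crest.Agent.R50

open Crest.Agent.Mod2Chain MvPolynomial Filter

/-- lexicographically positive vectors -/
def LexPos : Set V := {x | ∃ i, 0 < x i ∧ ∀ j < i, x j = 0}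

theorem convex_LexPos : Convex ℝ LexPos := by
  rintro x ⟨i, hi, hi'⟩ y ⟨k, hk, hk'⟩ a b ha hb hab
  rcases ha.eq_or_lt with rfl | ha'
  · rw [zero_add] at hab; subst hab
    exact ⟨k, by simpa using hk, by simpa using hk'⟩
  rcases hb.eq_or_lt with rfl | hb'
  · rw [add_zero] at hab; subst hab
    exact ⟨i, by simpa using hi, by simpa using hi'⟩
  rcases lt_trichotomy i k with h | rfl | h
  · refine ⟨i, ?_, fun j hj => ?_⟩
    · simp only [Pi.add_apply, Pi.smul_apply, smul_eq_mul, hk' i h]; nlinarith [mul_pos ha' hi]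
    · simp [hi' j hj, hk' j (hj.trans h)]
  · refine ⟨i, ?_, fun j hj => ?_⟩
    · simp only [Pi.add_apply, Pi.smul_apply, smul_eq_mul]; positivity
    · simp [hi' j hj, hk' j hj]
  · refine ⟨k, ?_, fun j hj => ?_⟩
    · simp only [Pi.add_apply, Pi.smul_apply, smul_eq_mul, hi' k h]; nlinarith [mul_pos hb' hk]
    · simp [hk' j hj, hi' j (hj.trans h)]

theorem LexPos.ne_zero {x : V} (h : x ∈ LexPos) : x ≠ 0 := by
  rintro rfl
  obtain ⟨i, hi, -⟩ := h
  simp at hi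

theorem LexPos.or_neg {x : V} (h : x ≠ 0) : x ∈ LexPos ∨ -x ∈ LexPos := by
  classical
  have hne : (Finset.univ.filter fun i => x i ≠ 0).Nonempty := by
    obtain ⟨i, hi⟩ := Function.ne_iff.1 h
    exact ⟨i, by simpa using hi⟩
  let i := Finset.min' _ hne
  have hi : x i ≠ 0 := by simpa using Finset.min'_mem _ hne
  have hj : ∀ j < i, x j = 0 := by
    intro j hj
    by_contra h'
    exact absurd (Finset.min'_le _ j (by simpa using h')) (not_le.2 hj)
  rcases lt_or_gt_of_ne hi with h1 | h1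
  · exact Or.inr ⟨i, by simpa using h1, fun j h' => by simp [hj j h']⟩
  · exact Or.inl ⟨i, h1, hj⟩

theorem LexPos.not_neg {x : V} (h : x ∈ LexPos) : -x ∉ LexPos := by
  intro h'
  have := convex_LexPos h h' (a := 1 / 2) (b := 1 / 2) (by norm_num) (by norm_num) (by norm_num)
  exact LexPos.ne_zero this (by simp)

theorem LexPos.zero_le {x : V} (h : x ∈ LexPos) : 0 ≤ x 0 := by
  obtain ⟨i, hi, hi'⟩ := h
  rcases eq_or_ne i 0 with rfl | h0
  · exact hi.le
  · exact (hi' 0 (Fin.pos_iff_ne_zero.2 h0)).ge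

theorem LexPos.of_pos {x : V} (h : 0 < x 0) : x ∈ LexPos := ⟨0, h, fun j hj => by simp at hj⟩

theorem preconnected_equator : IsPreconnected {q : V | q 0 = 0 ∧ q ≠ 0} := by
  have h1 : IsConnected ({0}ᶜ : Set (Fin 3 → ℝ)) :=
    isConnected_compl_singleton_of_one_lt_rank (by simp) 0
  have h2 := h1.isPreconnected.image (fun y : Fin 3 → ℝ => (Fin.cons 0 y : V))
    (Continuous.continuousOn (by fun_prop))
  convert h2 using 1
  ext q
  constructor
  · rintro ⟨h3, h4⟩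
    refine ⟨Fin.tail q, ?_, by rw [← h3]; exact Fin.cons_self_tail q⟩
    intro h5
    apply h4
    rw [← Fin.cons_self_tail q, h3, Set.mem_singleton_iff.1 h5]
    ext i; fin_cases i <;> rfl
  · rintro ⟨y, hy, rfl⟩
    refine ⟨rfl, fun h => hy ?_⟩
    ext i
    exact congrFun h i.succ

theorem exists_eta {𝒰 : Set (Set V)} (ho : ∀ U ∈ 𝒰, IsOpen U) (hc : ∀ U ∈ 𝒰, Convex ℝ U)
    (hne : ∀ U ∈ 𝒰, ∀ x ∈ U, x ≠ 0) (hsym : ∀ U ∈ 𝒰, -U ∈ 𝒰) (hcov : {x | x ≠ 0} ⊆ ⋃₀ 𝒰)
    (ω : V → V → ZMod 2) (heven : ∀ x y, ω (-x) (-y) = ω x y)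
    (hco : ∀ U ∈ 𝒰, ∀ x ∈ U, ∀ y ∈ U, ∀ z ∈ U, ω x y + ω y z + ω x z = 0)
    (η₀ : V → ZMod 2)
    (hη₀ : ∀ U ∈ 𝒰, ∀ x ∈ U, ∀ y ∈ U, x ∈ LexPos → y ∈ LexPos → η₀ x + η₀ y = ω x y) :
    ∃ (η : V → ZMod 2) (g : ZMod 2), (∀ U ∈ 𝒰, ∀ x ∈ U, ∀ y ∈ U, η x + η y = ω x y) ∧
      ∀ x, x ≠ 0 → η (-x) = η x + g := by
  classical
  have two : ∀ a : ZMod 2, a + a = 0 := Sgn.two_eq
  let val : V → V → ZMod 2 := fun x y => ω x y + η₀ x + η₀ (-y)
  have hneg : ∀ U ∈ 𝒰, ∀ x ∈ U, ∀ y ∈ U, -x ∈ LexPos → -y ∈ LexPos →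
      η₀ (-x) + η₀ (-y) = ω x y := by
    intro U hU x hx y hy h1 h2
    rw [hη₀ _ (hsym U hU) (-x) (by simpa using hx) (-y) (by simpa using hy) h1 h2, heven]
  have hval : ∀ U ∈ 𝒰, ∀ x ∈ U, ∀ x' ∈ U, ∀ y ∈ U, ∀ y' ∈ U, x ∈ LexPos → x' ∈ LexPos →
      -y ∈ LexPos → -y' ∈ LexPos → val x y = val x' y' := by
    intro U hU x hx x' hx' y hy y' hy' h1 h2 h3 h4
    have e1 := hco U hU x hx x' hx' y hy
    have e2 := hco U hU x' hx' y' hy' y hy
    have e3 := hη₀ U hU x hx x' hx' h1 h2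
    have e4 := hneg U hU y' hy' y hy h4 h3
    simp only [val]
    linear_combination e1 + e2 + e3 + e4 - two (ω x' y) - two (ω x' y') - two (η₀ x') -
      two (η₀ (-y'))
  have hcross : ∀ U : Set V, IsOpen U → ∀ q ∈ U, q 0 = 0 →
      ∃ x ∈ U, ∃ y ∈ U, x ∈ LexPos ∧ -y ∈ LexPos := by
    intro U hU q hq h0
    obtain ⟨δ, hδ, hb⟩ := Metric.isOpen_iff.1 hU q hq
    refine ⟨q + Pi.single 0 (δ / 2), hb ?_, q - Pi.single 0 (δ / 2), hb ?_, LexPos.of_pos ?_,
      LexPos.of_pos ?_⟩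
    · rw [Metric.mem_ball, dist_self_add_left, Pi.norm_single, Real.norm_eq_abs, abs_of_pos] <;>
        linarith
    · rw [Metric.mem_ball, dist_self_sub_left, Pi.norm_single, Real.norm_eq_abs, abs_of_pos] <;>
        linarith
    · simp [h0, hδ]
    · simp [h0, hδ]
  let O : ZMod 2 → Set V := fun t =>
    ⋃₀ {U | U ∈ 𝒰 ∧ ∃ x ∈ U, ∃ y ∈ U, x ∈ LexPos ∧ -y ∈ LexPos ∧ val x y = t}
  have hOo : ∀ t, IsOpen (O t) := fun t => isOpen_sUnion fun U hU => ho U hU.1
  have hmeet : ∀ U ∈ 𝒰, ∀ x ∈ U, ∀ y ∈ U, x ∈ LexPos → -y ∈ LexPos →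
      ({q : V | q 0 = 0 ∧ q ≠ 0} ∩ O (val x y)).Nonempty := by
    intro U hU x hx y hy h1 h2
    have a1 := LexPos.zero_le h1
    have a2 : y 0 ≤ 0 := by simpa using LexPos.zero_le h2
    obtain ⟨q, hq, hq0⟩ : ∃ q ∈ U, q 0 = 0 := by
      rcases a1.eq_or_lt with h | h
      · exact ⟨x, hx, h.symm⟩
      · have hpos : 0 < x 0 - y 0 := by linarith
        refine ⟨_, hc U hU hx hy (a := - y 0 / (x 0 - y 0)) (b := x 0 / (x 0 - y 0))
          (div_nonneg (by linarith) hpos.le) (div_nonneg a1 hpos.le) (by field_simp; ring), ?_⟩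
        simp only [Pi.add_apply, Pi.smul_apply, smul_eq_mul]
        field_simp; ring
    exact ⟨q, ⟨hq0, hne U hU q hq⟩, U, ⟨hU, x, hx, y, hy, h1, h2, rfl⟩, hq⟩
  have h01 : ∀ a : ZMod 2, a = 0 ∨ a = 1 := by decide
  obtain ⟨g, hg⟩ : ∃ g, ∀ U ∈ 𝒰, ∀ x ∈ U, ∀ y ∈ U, x ∈ LexPos → -y ∈ LexPos → val x y = g := by
    by_contra hcon
    push Not at hcon
    obtain ⟨U0, hU0, x0, hx0, y0, hy0, a0, b0, c0⟩ := hcon 1
    obtain ⟨U1, hU1, x1, hx1, y1, hy1, a1, b1, c1⟩ := hcon 0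
    have m0 := hmeet U0 hU0 x0 hx0 y0 hy0 a0 b0
    have m1 := hmeet U1 hU1 x1 hx1 y1 hy1 a1 b1
    rw [(h01 _).resolve_right c0] at m0
    rw [(h01 _).resolve_left c1] at m1
    obtain ⟨q, hq, ⟨U, ⟨hU, x, hx, y, hy, h1, h2, h3⟩, hqU⟩,
        U', ⟨hU', x', hx', y', hy', h1', h2', h3'⟩, hqU'⟩ :=
      preconnected_equator (O 0) (O 1) (hOo 0) (hOo 1) (by
        rintro q ⟨hq0, hq⟩
        obtain ⟨U, hU, hqU⟩ := hcov hq
        obtain ⟨x, hx, y, hy, h1, h2⟩ := hcross U (ho U hU) q hqU hq0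
        rcases h01 (val x y) with h | h
        · exact Or.inl ⟨U, ⟨hU, x, hx, y, hy, h1, h2, h⟩, hqU⟩
        · exact Or.inr ⟨U, ⟨hU, x, hx, y, hy, h1, h2, h⟩, hqU⟩) m0 m1
    obtain ⟨x'', hx'', y'', hy'', h1'', h2''⟩ :=
      hcross (U ∩ U') ((ho U hU).inter (ho U' hU')) q ⟨hqU, hqU'⟩ hq.1
    have e1 := hval U hU x hx x'' hx''.1 y hy y'' hy''.1 h1 h1'' h2 h2''
    have e2 := hval U' hU' x' hx' x'' hx''.2 y' hy' y'' hy''.2 h1' h1'' h2' h2''
    rw [h3, ← e2, h3'] at e1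
    exact absurd e1 (by decide)
  refine ⟨fun x => if x ∈ LexPos then η₀ x else η₀ (-x) + g, g, ?_, ?_⟩
  · intro U hU x hx y hy
    have hsymm : ω y x = ω x y := by
      have e1 := hco U hU x hx y hy x hx
      have e2 := hco U hU x hx x hx x hx
      linear_combination e1 - e2 + two (ω x x) - two (ω x y)
    by_cases h1 : x ∈ LexPos <;> by_cases h2 : y ∈ LexPos
    · simp only [h1, h2, if_true]; exact hη₀ U hU x hx y hy h1 h2
    · simp only [h1, h2, if_true, if_false]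
      have := hg U hU x hx y hy h1 ((LexPos.or_neg (hne U hU y hy)).resolve_left h2)
      simp only [val] at this
      linear_combination this - two (ω x y) + two g
    · simp only [h1, h2, if_true, if_false]
      have := hg U hU y hy x hx h2 ((LexPos.or_neg (hne U hU x hx)).resolve_left h1)
      simp only [val] at this
      rw [hsymm] at this
      linear_combination this - two (ω x y) + two g
    · simp only [h1, h2, if_false]
      have := hneg U hU x hx y hy ((LexPos.or_neg (hne U hU x hx)).resolve_left h1)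
        ((LexPos.or_neg (hne U hU y hy)).resolve_left h2)
      linear_combination this + two g
  · intro x hx
    by_cases h1 : x ∈ LexPos
    · simp only [h1, LexPos.not_neg h1, if_true, if_false, neg_neg]
    · simp only [h1, (LexPos.or_neg hx).resolve_left h1, if_true, if_false]
      linear_combination - two g

theorem continuousAt_ver {x : V} (hx : x ≠ 0) : ContinuousAt ver x := by
  have h1 : ContinuousAt (fun x : V => (dot x x)⁻¹) x :=
    ContinuousAt.inv₀ (by unfold dot; fun_prop) (dot_self_pos hx).ne'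
  have h2 : ContinuousAt (fun x : V => (![x 0 ^ 2 - x 3 ^ 2, x 0 * x 1, x 0 * x 2, x 0 * x 3,
      x 1 ^ 2 - x 3 ^ 2, x 1 * x 2, x 1 * x 3, x 2 ^ 2 - x 3 ^ 2, x 2 * x 3, x 3 ^ 2] : E)) x := by
    fun_prop
  exact h1.smul h2

namespace Data

variable (D : Data)

/-- positive labelling of vectors by their colour -/
noncomputable def lab (x : V) : Fin 10 × Bool := (D.col (ver x), true)

/-- small open convex sets of nonzero vectors -/
def covV : Set (Set V) :=
  {U | IsOpen U ∧ Convex ℝ U ∧ (∀ p ∈ U, p ≠ 0) ∧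
    ∃ x, ∀ p ∈ U, ∀ u, dot u u = 1 → dot x u = 0 → bil (ver p) u u ≤ D.e / 8}

/-- label sets that avoid the colours of a hyperplane -/
def Near (T : Set (Fin 10 × Bool)) : Prop :=
  (∀ y ∈ T, y.2 = true) ∧ ∃ x : V, ∀ u, dot u u = 1 → dot x u = 0 → D.lab u ∉ T

theorem col_ne {p u : V} (hp : p ≠ 0) (hu : dot u u = 1) (h : bil (ver p) u u ≤ D.e / 8) :
    D.col (ver p) ≠ D.col (ver u) := by
  intro hc
  have h1 := D.h p u hp (ne_zero_of_dot_one hu) hc
  have hpos := dot_self_pos hp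
  rw [bil_ver, inv_mul_le_iff₀ hpos] at h
  rw [hu, mul_one] at h1
  have := D.he
  nlinarith [mul_pos hpos this]

theorem near_of_small {s : Set V} (hs : Small D.covV s) : D.Near (D.lab '' s) := by
  refine ⟨by rintro _ ⟨x, -, rfl⟩; rfl, ?_⟩
  rcases s.eq_empty_or_nonempty with rfl | hne
  · exact ⟨0, by simp⟩
  · obtain ⟨U, ⟨-, -, h1, x, h2⟩, hU⟩ := hs hne
    refine ⟨x, fun u hu hx => ?_⟩
    rintro ⟨p, hp, h⟩
    exact D.col_ne (h1 p (hU hp)) hu (h2 p (hU hp) u hu hx) (congrArg Prod.fst h)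

theorem exists_ball {x : V} (hx : x ≠ 0) {O : Set V} (hO : O ∈ nhds x) :
    ∃ r > 0, Metric.ball x r ∈ D.covV ∧ Metric.ball x r ⊆ O := by
  have hcont : ContinuousAt ver x := continuousAt_ver hx
  have he := D.he
  have h1 : ∀ᶠ p in nhds x, dist (ver p) (ver x) < D.e / 160 :=
    hcont.eventually (Metric.ball_mem_nhds _ (by positivity))
  obtain ⟨r, hr, hb⟩ := Metric.mem_nhds_iff.1 (inter_mem (inter_mem h1 hO)
    (isOpen_ne.mem_nhds hx))
  refine ⟨r, hr, ⟨Metric.isOpen_ball, convex_ball _ _, fun p hp => (hb hp).2, x, ?_⟩,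
    fun p hp => (hb hp).1.2⟩
  intro p hp u hu hxu
  have h2 := abs_bil_le (ver p - ver x) hu hu
  have h3 : dist (ver p) (ver x) < D.e / 160 := (hb hp).1.1
  rw [bil_sub, bil_ver x, hxu, ← dist_eq_norm] at h2
  have := le_abs_self (bil (ver p) u u - (dot x x)⁻¹ * (0 * 0))
  linarith

theorem covV_covers : {x : V | x ≠ 0} ⊆ ⋃₀ D.covV := by
  intro x hx
  obtain ⟨r, hr, h, -⟩ := D.exists_ball hx univ_mem
  exact ⟨_, h, Metric.mem_ball_self hr⟩

theorem partB {z₃ z₂ : P (Fin 10 × Bool)} {α₁ : P V} (h3 : z₃ ∈ Ch D.Near 4) (h2 : z₂ ∈ Ch D.Near 3)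
    (b3 : bd z₃ = 0) (b2 : bd z₂ = 0) (h1 : α₁ ∈ Ch (Small D.covV) 2) {p : V} (hp : p ≠ 0)
    (b1 : bd α₁ = X p + X (-p))
    (htop : coeff (plus Finset.univ) (z₃ * z₂ * rename D.lab α₁ * X (0, true)) = 1) : False := by
  classical
  let w : P V →ₗ[ZMod 2] ZMod 2 :=
    { toFun := fun ξ => coeff (plus Finset.univ) (z₃ * z₂ * rename D.lab ξ * X (0, true))
      map_add' := by intro a b; rw [map_add, mul_add, add_mul, coeff_add]
      map_smul' := by
        intro c a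
        rw [map_smul, mul_smul_comm, smul_mul_assoc, coeff_smul]; rfl }
  have hw : ∀ ξ, w ξ = coeff (plus Finset.univ) (z₃ * z₂ * rename D.lab ξ * X (0, true)) :=
    fun _ => rfl
  let g : Sgn (Fin 10) :=
    { s := fun i j => coeff (plus Finset.univ) (z₃ * z₂ * (X (i, true) * X (j, true)) * X (0, true))
      symm := fun i j => by rw [mul_comm (X (i, true))]
      self := fun i => by
        refine coeff_eq_zero_of_Deg (Deg.mul_right (Deg.mul_left ?_ _) _) (plus_le_one _)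
        rw [← sq, X_pow_eq_monomial]
        exact monomial_mem_Sup ⟨(i, true), by simp⟩ _ }
  let ω : V → V → ZMod 2 := fun x y => g.s (D.col (ver x)) (D.col (ver y))
  have hwω : ∀ x y, w (X x * X y) = ω x y := by
    intro x y; rw [hw, map_mul, rename_X, rename_X]; rfl
  have hwbd : ∀ ξ ∈ Ch (Small D.covV) 3, w (bd ξ) = 0 := by
    intro ξ hξ
    have hl : rename D.lab ξ ∈ Ch D.Near 3 := Ch.rename _ (fun s hs => D.near_of_small hs) hξ
    have hprod : z₃ * z₂ * rename D.lab ξ ∈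
        Ch (fun s => (∀ y ∈ s, y.2 = true) ∧ ∃ i, (i, true) ∉ s) (4 + 3 + 3) := by
      refine Ch.mul (S₁ := fun s => ∃ a b, D.Near a ∧ D.Near b ∧ s = a ∪ b) ?_
        (Ch.mul (fun s t hs ht => ⟨s, t, hs, ht, rfl⟩) h3 h2) hl
      rintro _ c ⟨a, b, ⟨ha, x, hx⟩, ⟨hb, y, hy⟩, rfl⟩ ⟨hc, z, hz⟩
      obtain ⟨u, hu, e1, e2, e3⟩ := exists_orth x y z
      refine ⟨?_, D.col (ver u), ?_⟩
      · rintro q ((h | h) | h)
        exacts [ha q h, hb q h, hc q h]
      · rintro ((h | h) | h)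
        exacts [hx u hu e1 h, hy u hu e2 h, hz u hu e3 h]
    have e1 := coeff_plus_eq_zero (Ch.mono (fun s hs => hs.2) hprod)
    have e2 := coeff_plus_bd (Ch.mul (S₂ := fun s => s = {(0, true)}) ?_ hprod (X_mem_Ch rfl))
    · rw [bd_mul, bd_X, mul_one, coeff_add, e1, add_zero, bd_mul, bd_mul, b3, b2, zero_mul,
        mul_zero, add_zero, zero_mul, zero_add, bd_rename] at e2
      exact e2
    · rintro s t ⟨hs, -⟩ rfl ⟨-, i, h | h⟩
      · simpa using hs _ h
      · simp at h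
  have hsmall2 : ∀ U ∈ D.covV, ∀ x ∈ U, ∀ y ∈ U, (X x * X y : P V) ∈ Ch (fun s => s ⊆ U) 2 :=
    fun U _ x hx y hy => Ch.mul (S₁ := fun s => s ⊆ U) (S₂ := fun s => s ⊆ U)
      (fun s t => Set.union_subset) (X_mem_Ch (by simpa using hx)) (X_mem_Ch (by simpa using hy))
  have hco : ∀ U ∈ D.covV, ∀ x ∈ U, ∀ y ∈ U, ∀ z ∈ U, ω x y + ω y z + ω x z = 0 := by
    intro U hU x hx y hy z hz
    have : (X x * X y * X z : P V) ∈ Ch (Small D.covV) 3 :=
      Ch.mul (S₂ := fun s => s ⊆ U) (fun s t hs ht _ => ⟨U, hU, Set.union_subset hs ht⟩)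
        (hsmall2 U hU x hx y hy) (X_mem_Ch (by simpa using hz))
    have e := hwbd _ this
    rw [bd_mul, bd_mul, bd_X, bd_X, bd_X, one_mul, mul_one, mul_one, add_mul, map_add, map_add,
      hwω, hwω, hwω] at e
    linear_combination e
  have hac := acyc_small (𝒰 := D.covV) (fun U hU => hU.1) (fun U hU => hU.2.1) convex_LexPos
    ⟨Pi.single 0 1, LexPos.of_pos (by simp)⟩
    (fun x hx => D.covV_covers (LexPos.ne_zero hx))
  have hX : ∀ x ∈ LexPos, (X x : P V) ∈ Ch (fun s => s ⊆ LexPos ∧ Small D.covV s) 1 := by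
    intro x hx
    refine X_mem_Ch ⟨by simpa using hx, fun _ => ?_⟩
    obtain ⟨U, hU, h⟩ := D.covV_covers (LexPos.ne_zero hx)
    exact ⟨U, hU, by simpa using h⟩
  have hγ : ∀ x ∈ LexPos, ∃ γ ∈ Ch (fun s => s ⊆ LexPos ∧ Small D.covV s) 2,
      bd γ = X x + X (Pi.single 0 1) := fun x hx =>
    hac 1 _ (Submodule.add_mem _ (hX x hx) (hX _ (LexPos.of_pos (by simp))))
      (by rw [map_add, bd_X, bd_X, add_self])
  choose! γ hγ1 hγ2 using hγ
  have hsym : ∀ U ∈ D.covV, -U ∈ D.covV := by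
    rintro U ⟨a1, a2, a3, x, a4⟩
    refine ⟨a1.neg, a2.neg, fun p hp => ?_, x, fun p hp u hu hx => ?_⟩
    · exact neg_ne_zero.1 (a3 _ hp)
    · rw [← ver_neg]; exact a4 _ hp u hu hx
  have hη₀ : ∀ U ∈ D.covV, ∀ x ∈ U, ∀ y ∈ U, x ∈ LexPos → y ∈ LexPos →
      w (γ x) + w (γ y) = ω x y := by
    intro U hU x hx y hy hxW hyW
    have hxy : (X x * X y : P V) ∈ Ch (fun s => s ⊆ LexPos ∧ Small D.covV s) 2 :=
      Ch.and (Ch.mul (S₁ := fun s => s ⊆ LexPos) (S₂ := fun s => s ⊆ LexPos)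
        (fun s t => Set.union_subset) (X_mem_Ch (by simpa using hxW)) (X_mem_Ch (by simpa using hyW)))
        (Ch.mono (fun s hs _ => ⟨U, hU, hs⟩) (hsmall2 U hU x hx y hy))
    obtain ⟨ξ, hξ, hb⟩ := hac 2 _ (Submodule.add_mem _ (Submodule.add_mem _ (hγ1 x hxW)
      (hγ1 y hyW)) hxy) (by
        rw [map_add, map_add, hγ2 x hxW, hγ2 y hyW, bd_mul, bd_X, bd_X, one_mul, mul_one]
        linear_combination add_self (X x : P V) + add_self (X y : P V) +
          add_self (X (Pi.single 0 1) : P V))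
    have e := hwbd ξ (Ch.mono (fun s hs => hs.2) hξ)
    rw [hb, map_add, map_add, hwω] at e
    linear_combination e - Sgn.two_eq (ω x y)
  obtain ⟨η, c, hη, hodd⟩ := exists_eta (𝒰 := D.covV) (fun U hU => hU.1) (fun U hU => hU.2.1)
    (fun U hU => hU.2.2.1) hsym D.covV_covers ω (fun x y => by simp only [ω, ver_neg]) hco
    (fun x => w (γ x)) hη₀
  have hc : c = 1 := by
    let L : P V →ₗ[ZMod 2] ZMod 2 := onMon fun m => m.sum fun x k => (k : ZMod 2) * η x
    have hL : ∀ x, L (X x) = η x := by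
      intro x
      show L (monomial (Finsupp.single x 1) 1) = _
      simp [L]
    have : (L ∘ₗ bd) α₁ = w α₁ := by
      refine Sup.map_eq _ _ ?_ h1
      rintro m ⟨hm1, hm2⟩
      obtain ⟨x, y, rfl⟩ : ∃ x y, m = Finsupp.single x 1 + Finsupp.single y 1 := by
        have h5 : Multiset.card (Finsupp.toMultiset m) = 2 := by
          rw [Finsupp.card_toMultiset, ← hm2]; rfl
        obtain ⟨x, y, h6⟩ := Multiset.card_eq_two.1 h5
        refine ⟨x, y, ?_⟩
        apply (Multiset.toFinsupp.symm : (V →₀ ℕ) ≃+ Multiset V).injective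
        show Finsupp.toMultiset _ = Finsupp.toMultiset _
        rw [h6, map_add, Finsupp.toMultiset_single, Finsupp.toMultiset_single]; rfl
      have e : (monomial (Finsupp.single x 1 + Finsupp.single y 1) 1 : P V) = X x * X y := by
        rw [X, X, monomial_mul, one_mul]
      rw [coe_support_add] at hm1
      obtain ⟨U, hU, hs⟩ := hm1 ⟨x, Or.inl (by simp)⟩
      rw [e, LinearMap.comp_apply, bd_mul, bd_X, bd_X, one_mul, mul_one, map_add, hL, hL, hwω,
        add_comm]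
      exact hη U hU x (hs (Or.inl (by simp))) y (hs (Or.inr (by simp)))
    rw [LinearMap.comp_apply, b1, map_add, hL, hL, hodd p hp, hw, htop] at this
    linear_combination this - Sgn.two_eq (η p)
  subst hc
  have hi : (0 : Fin 4) ∉ (Finset.univ : Finset (Fin 4)).erase 0 := by simp
  have k1 := hemi_zc _ 0 hi
  have k2 : Hemi (fun s : Set V => convexHull ℝ s ⊆ {x | x ≠ 0}) (fun x => -x) _ _ :=
    k1.rename pt (fun s hs => hull_pt_ne_zero hs.1) (fun s _ x _ => pt_flipL x)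
  obtain ⟨k, hk⟩ := (k2.eventually_small (fun U hU => hU.1) D.covV_covers).exists
  refine g.not_ind_three (by simp) ⟨_, hk.rename (fun x => (D.col (ver x), η x)) ?_ ?_⟩
  · rintro s ⟨-, hs⟩
    refine ⟨?_, fun _ _ => Finset.mem_univ _⟩
    rintro _ ⟨x, hx, rfl⟩ _ ⟨y, hy, rfl⟩
    obtain ⟨U, hU, h⟩ := hs ⟨x, hx⟩
    exact hη U hU x (h hx) y (h hy)
  · rintro s ⟨hs, -⟩ x hx
    simp only [Sgn.nu, ver_neg, hodd x (hs (subset_convexHull ℝ s hx))]

end Data

end Crest.Agent.R50
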