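import Crest.Agent.Lib.Mod2Chain.Cross

/-!
Quadratic forms on `ℝ⁴`, the Veronese map and the signed labelling of nonzero forms by the colour
of an extremal vector.
-/

set_option autoImplicit false
set_option maxHeartbeats 400000

namespace Crest.Agent.R50

open Crest.Agent.Mod2Chain

abbrev V := Fin 4 → ℝ
abbrev E := Fin 10 → ℝ

def dot (u v : V) : ℝ := u 0 * v 0 + u 1 * v 1 + u 2 * v 2 + u 3 * v 3

/-- the symmetric bilinear form with coordinates `M`; the last coordinate is the identity form -/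
def bil (M : E) (u v : V) : ℝ :=
  M 0 * (u 0 * v 0) + M 1 * (u 0 * v 1 + u 1 * v 0) + M 2 * (u 0 * v 2 + u 2 * v 0) +
    M 3 * (u 0 * v 3 + u 3 * v 0) + M 4 * (u 1 * v 1) + M 5 * (u 1 * v 2 + u 2 * v 1) +
    M 6 * (u 1 * v 3 + u 3 * v 1) + M 7 * (u 2 * v 2) + M 8 * (u 2 * v 3 + u 3 * v 2) +
    M 9 * (u 0 * v 0 + u 1 * v 1 + u 2 * v 2 + u 3 * v 3)

/-- the Veronese map `x ↦ x xᵀ / |x|²` -/
noncomputable def ver (x : V) : E :=
  (dot x x)⁻¹ • ![x 0 ^ 2 - x 3 ^ 2, x 0 * x 1, x 0 * x 2, x 0 * x 3, x 1 ^ 2 - x 3 ^ 2,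
    x 1 * x 2, x 1 * x 3, x 2 ^ 2 - x 3 ^ 2, x 2 * x 3, x 3 ^ 2]

def tr (M : E) : ℝ := M 0 + M 4 + M 7 + 4 * M 9

/-- the identity form -/
def idf : E := Pi.single 9 1

theorem dot_comm (u v : V) : dot u v = dot v u := by simp only [dot]; ring

theorem dot_self_nonneg (u : V) : 0 ≤ dot u u := by
  simp only [dot]; nlinarith [mul_self_nonneg (u 0), mul_self_nonneg (u 1), mul_self_nonneg (u 2),
    mul_self_nonneg (u 3)]

theorem dot_self_pos {u : V} (h : u ≠ 0) : 0 < dot u u := by
  refine lt_of_le_of_ne (dot_self_nonneg u) fun h0 => h ?_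
  simp only [dot] at h0
  have a0 := mul_self_nonneg (u 0)
  have a1 := mul_self_nonneg (u 1)
  have a2 := mul_self_nonneg (u 2)
  have a3 := mul_self_nonneg (u 3)
  ext i
  fin_cases i
  · exact mul_self_eq_zero.1 (by show u 0 * u 0 = 0; linarith)
  · exact mul_self_eq_zero.1 (by show u 1 * u 1 = 0; linarith)
  · exact mul_self_eq_zero.1 (by show u 2 * u 2 = 0; linarith)
  · exact mul_self_eq_zero.1 (by show u 3 * u 3 = 0; linarith)

theorem ne_zero_of_dot_one {u : V} (h : dot u u = 1) : u ≠ 0 := by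
  rintro rfl; simp [dot] at h

theorem bil_symm (M : E) (u v : V) : bil M u v = bil M v u := by simp only [bil]; ring

theorem bil_add (M M' : E) (u v : V) : bil (M + M') u v = bil M u v + bil M' u v := by
  simp only [bil, Pi.add_apply]; ring

theorem bil_sub (M M' : E) (u v : V) : bil (M - M') u v = bil M u v - bil M' u v := by
  simp only [bil, Pi.sub_apply]; ring

theorem bil_neg (M : E) (u v : V) : bil (-M) u v = - bil M u v := by
  simp only [bil, Pi.neg_apply]; ring

theorem bil_smul (a : ℝ) (M : E) (u v : V) : bil (a • M) u v = a * bil M u v := by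
  simp only [bil, Pi.smul_apply, smul_eq_mul]; ring

theorem bil_idf (u v : V) : bil idf u v = dot u v := by
  simp [bil, idf, dot]

theorem bil_ver (x u v : V) : bil (ver x) u v = (dot x x)⁻¹ * (dot x u * dot x v) := by
  rw [ver, bil_smul]
  congr 1
  simp [bil, dot]; ring

theorem tr_add (M M' : E) : tr (M + M') = tr M + tr M' := by simp only [tr, Pi.add_apply]; ring

theorem tr_smul (a : ℝ) (M : E) : tr (a • M) = a * tr M := by
  simp only [tr, Pi.smul_apply, smul_eq_mul]; ring

theorem tr_ver {x : V} (h : x ≠ 0) : tr (ver x) = 1 := by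
  rw [ver, tr_smul, ← inv_mul_cancel₀ (dot_self_pos h).ne']
  congr 1
  simp [tr, dot]; ring

theorem tr_idf : tr idf = 4 := by simp [tr, idf]

theorem ver_neg (x : V) : ver (-x) = ver x := by
  simp [ver, dot]

theorem tr_eq (M : E) : tr M = bil M (Pi.single 0 1) (Pi.single 0 1) +
    bil M (Pi.single 1 1) (Pi.single 1 1) + bil M (Pi.single 2 1) (Pi.single 2 1) +
    bil M (Pi.single 3 1) (Pi.single 3 1) := by
  simp [tr, bil]; ring

theorem dot_single (i : Fin 4) : dot (Pi.single i 1) (Pi.single i 1) = 1 := by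
  fin_cases i <;> simp [dot]

def PSD (M : E) : Prop := ∀ w, 0 ≤ bil M w w

theorem PSD.cs {M : E} (h : PSD M) (u v : V) : bil M u v ^ 2 ≤ bil M u u * bil M v v := by
  have := discrim_le_zero (a := bil M v v) (b := 2 * bil M u v) (c := bil M u u) fun t => by
    have e : bil M (u + t • v) (u + t • v) =
        bil M v v * (t * t) + 2 * bil M u v * t + bil M u u := by
      simp only [bil, Pi.add_apply, Pi.smul_apply, smul_eq_mul]; ring
    rw [← e]; exact h _
  rw [discrim] at this
  nlinarith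

theorem eq_zero_of_bil {M : E} (h : ∀ u, bil M u u = 0) : M = 0 := by
  have h0 := h ![1, 0, 0, 0]
  have h1 := h ![0, 1, 0, 0]
  have h2 := h ![0, 0, 1, 0]
  have h3 := h ![0, 0, 0, 1]
  have h01 := h ![1, 1, 0, 0]
  have h02 := h ![1, 0, 1, 0]
  have h03 := h ![1, 0, 0, 1]
  have h12 := h ![0, 1, 1, 0]
  have h13 := h ![0, 1, 0, 1]
  have h23 := h ![0, 0, 1, 1]
  simp [bil] at h0 h1 h2 h3 h01 h02 h03 h12 h13 h23
  ext i
  fin_cases i <;> simp <;> linarith

theorem exists_vmax (M : E) :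
    ∃ v : V, dot v v = 1 ∧ ∀ u, |bil M u u| ≤ |bil M v v| * dot u u := by
  have hK : IsCompact {u : V | dot u u = 1} := by
    refine Metric.isCompact_of_isClosed_isBounded
      (isClosed_eq (by unfold dot; fun_prop) continuous_const) ?_
    refine (Metric.isBounded_closedBall (x := (0 : V)) (r := 1)).subset fun u hu => ?_
    rw [mem_closedBall_zero_iff, pi_norm_le_iff_of_nonneg zero_le_one]
    intro i
    simp only [Set.mem_ofPred_eq, dot] at hu
    have a0 := mul_self_nonneg (u 0)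
    have a1 := mul_self_nonneg (u 1)
    have a2 := mul_self_nonneg (u 2)
    have a3 := mul_self_nonneg (u 3)
    rw [Real.norm_eq_abs, ← abs_one, ← sq_le_sq, sq, one_pow]
    fin_cases i
    · show u 0 * u 0 ≤ 1; linarith
    · show u 1 * u 1 ≤ 1; linarith
    · show u 2 * u 2 ≤ 1; linarith
    · show u 3 * u 3 ≤ 1; linarith
  obtain ⟨v, hv, hmax⟩ := hK.exists_isMaxOn ⟨Pi.single 0 1, dot_single 0⟩
    (f := fun u => |bil M u u|) (by unfold bil; fun_prop)
  refine ⟨v, hv, fun u => ?_⟩
  by_cases hu : u = 0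
  · subst hu; simp [bil, dot]
  · have hpos := dot_self_pos hu
    set c := (Real.sqrt (dot u u))⁻¹ with hc
    have hc2 : c * c * dot u u = 1 := by
      rw [hc, ← mul_inv, Real.mul_self_sqrt hpos.le, inv_mul_cancel₀ hpos.ne']
    have h1 : dot (c • u) (c • u) = 1 := by
      rw [← hc2]; simp only [dot, Pi.smul_apply, smul_eq_mul]; ring
    have h2 : bil M (c • u) (c • u) = c * c * bil M u u := by
      simp only [bil, Pi.smul_apply, smul_eq_mul]; ring
    have h3 : |bil M (c • u) (c • u)| ≤ |bil M v v| := hmax h1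
    rw [h2, abs_mul, abs_mul_self] at h3
    calc |bil M u u| = (c * c * |bil M u u|) * dot u u := by
          rw [mul_right_comm, hc2, one_mul]
      _ ≤ |bil M v v| * dot u u := mul_le_mul_of_nonneg_right h3 hpos.le

/-- an extremal unit vector of the form `M` (the same for `M` and `-M`) -/
noncomputable def vmax (M : E) : V :=
  Classical.epsilon fun v : V => dot v v = 1 ∧ ∀ u, |bil M u u| ≤ |bil M v v| * dot u u

theorem vmax_spec (M : E) : dot (vmax M) (vmax M) = 1 ∧
    ∀ u, |bil M u u| ≤ |bil M (vmax M) (vmax M)| * dot u u :=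
  Classical.epsilon_spec (exists_vmax M)

theorem vmax_neg (M : E) : vmax (-M) = vmax M := by
  simp only [vmax, bil_neg, abs_neg]

noncomputable def lam (M : E) : ℝ := bil M (vmax M) (vmax M)

theorem lam_neg (M : E) : lam (-M) = - lam M := by rw [lam, vmax_neg, bil_neg, lam]

theorem lam_ne_zero {M : E} (h : M ≠ 0) : lam M ≠ 0 := by
  intro h0
  apply h
  refine eq_zero_of_bil fun u => ?_
  have := (vmax_spec M).2 u
  rw [← lam, h0, abs_zero, zero_mul] at this
  exact abs_nonpos_iff.1 this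

theorem eigen_of_nonneg {M : E} (h : 0 ≤ lam M) (u : V) :
    bil M (vmax M) u = lam M * dot (vmax M) u := by
  have hG : PSD (lam M • idf - M) := by
    intro w
    rw [bil_sub, bil_smul, bil_idf]
    have := (vmax_spec M).2 w
    rw [← lam, abs_of_nonneg h] at this
    linarith [le_abs_self (bil M w w)]
  have h1 := hG.cs (vmax M) u
  rw [bil_sub _ _ (vmax M) (vmax M), bil_smul, bil_idf, (vmax_spec M).1, mul_one, ← lam, sub_self,
    zero_mul, bil_sub, bil_smul, bil_idf] at h1
  have := pow_eq_zero_iff (two_ne_zero) |>.1 (le_antisymm h1 (sq_nonneg _))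
  linarith

theorem eigen (M : E) (u : V) : bil M (vmax M) u = lam M * dot (vmax M) u := by
  rcases le_total 0 (lam M) with h | h
  · exact eigen_of_nonneg h u
  · have := eigen_of_nonneg (M := -M) (by rw [lam_neg]; linarith) u
    rw [vmax_neg, bil_neg, lam_neg] at this
    linarith

theorem abs_coord_le {u : V} (hu : dot u u = 1) (i : Fin 4) : |u i| ≤ 1 := by
  simp only [dot] at hu
  have a0 := mul_self_nonneg (u 0)
  have a1 := mul_self_nonneg (u 1)
  have a2 := mul_self_nonneg (u 2)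
  have a3 := mul_self_nonneg (u 3)
  rw [← abs_one, ← sq_le_sq, sq, one_pow]
  fin_cases i
  · show u 0 * u 0 ≤ 1; linarith
  · show u 1 * u 1 ≤ 1; linarith
  · show u 2 * u 2 ≤ 1; linarith
  · show u 3 * u 3 ≤ 1; linarith

theorem abs_bil_le (M : E) {u v : V} (hu : dot u u = 1) (hv : dot v v = 1) :
    |bil M u v| ≤ 20 * ‖M‖ := by
  have key : ∀ (a : Fin 10) (i j : Fin 4), |M a * (u i * v j)| ≤ ‖M‖ := by
    intro a i j
    rw [abs_mul, abs_mul]
    have h1 : |M a| ≤ ‖M‖ := norm_le_pi_norm M a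
    have h2 : |u i| * |v j| ≤ 1 :=
      mul_le_one₀ (abs_coord_le hu i) (abs_nonneg _) (abs_coord_le hv j)
    calc |M a| * (|u i| * |v j|) ≤ ‖M‖ * 1 := by gcongr
      _ = ‖M‖ := mul_one _
  have k := fun a i j => abs_le.1 (key a i j)
  have := norm_nonneg M
  rw [abs_le]
  simp only [bil, mul_add]
  constructor <;>
    linarith [k 0 0 0, k 1 0 1, k 1 1 0, k 2 0 2, k 2 2 0, k 3 0 3, k 3 3 0, k 4 1 1, k 5 1 2,
      k 5 2 1, k 6 1 3, k 6 3 1, k 7 2 2, k 8 2 3, k 8 3 2, k 9 0 0, k 9 1 1, k 9 2 2, k 9 3 3]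

/-- a ten-colouring of the projective space without nearly orthogonal monochromatic pairs -/
structure Data where
  col : E → Fin 10
  e : ℝ
  he : 0 < e
  h : ∀ x y : V, x ≠ 0 → y ≠ 0 → col (ver x) = col (ver y) →
    e * (dot x x * dot y y) ≤ dot x y ^ 2

namespace Data

variable (D : Data)

theorem e_le_one : D.e ≤ 1 := by
  have := D.h (Pi.single 0 1) (Pi.single 0 1) (ne_zero_of_dot_one (dot_single 0))
    (ne_zero_of_dot_one (dot_single 0)) rfl
  simpa [dot_single] using this

/-- the signed labelling of forms -/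
noncomputable def kap (M : E) : Fin 10 × Bool := (D.col (ver (vmax M)), decide (0 < lam M))

theorem kap_neg (M : E) (h : M ≠ 0) : D.kap (-M) = flipL (D.kap M) := by
  simp only [kap, flipL, vmax_neg, lam_neg, Prod.mk.injEq, true_and]
  have := lam_ne_zero h
  by_cases h1 : 0 < lam M
  · simp [h1, h1.le]
  · have : lam M < 0 := lt_of_le_of_ne (not_lt.1 h1) this
    simp [h1, this]

/-- open convex sets on which the labelling has no complementary pair -/
def cov : Set (Set E) := {U | IsOpen U ∧ Convex ℝ U ∧ NC (D.kap '' U)}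

theorem cov_covers : {M : E | M ≠ 0} ⊆ ⋃₀ D.cov := by
  intro M₀ h₀
  have ha : 0 < |lam M₀| := abs_pos.2 (lam_ne_zero h₀)
  have he := D.he
  have he1 := D.e_le_one
  set a := |lam M₀| with hadef
  have hr : 0 < a * D.e / 80 := by positivity
  refine ⟨Metric.ball M₀ (a * D.e / 80), ⟨Metric.isOpen_ball, convex_ball _ _, ?_⟩,
    Metric.mem_ball_self hr⟩
  have hlow : ∀ M ∈ Metric.ball M₀ (a * D.e / 80), a / 2 ≤ |lam M| := by
    intro M hM
    have h1 := (vmax_spec M).2 (vmax M₀)
    rw [(vmax_spec M₀).1, mul_one, ← lam] at h1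
    have h2 := abs_bil_le (M₀ - M) (vmax_spec M₀).1 (vmax_spec M₀).1
    rw [bil_sub, ← lam] at h2
    rw [Metric.mem_ball, dist_comm, dist_eq_norm] at hM
    have h3 := abs_sub_abs_le_abs_sub (lam M₀) (bil M (vmax M₀) (vmax M₀))
    nlinarith
  have key : ∀ M ∈ Metric.ball M₀ (a * D.e / 80), ∀ M' ∈ Metric.ball M₀ (a * D.e / 80),
      D.col (ver (vmax M)) = D.col (ver (vmax M')) → 0 < lam M → ¬ 0 < lam M' → False := by
    intro M hM M' hM' hc h1 h2
    have h3 := D.h _ _ (ne_zero_of_dot_one (vmax_spec M).1) (ne_zero_of_dot_one (vmax_spec M').1) hc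
    rw [(vmax_spec M).1, (vmax_spec M').1, mul_one, mul_one] at h3
    have h4 := hlow M hM
    have h5 := hlow M' hM'
    rw [abs_of_pos h1] at h4
    rw [abs_of_nonpos (not_lt.1 h2)] at h5
    have h6 := abs_bil_le (M - M') (vmax_spec M).1 (vmax_spec M').1
    rw [bil_sub, eigen, bil_symm, eigen, dot_comm (vmax M'), ← sub_mul, abs_mul,
      abs_of_pos (by linarith)] at h6
    have h7 : ‖M - M'‖ < a * D.e / 40 := by
      rw [← dist_eq_norm]
      have := dist_triangle_right M M' M₀
      rw [Metric.mem_ball] at hM hM'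
      linarith
    have h8 : |dot (vmax M) (vmax M')| ≤ D.e / 2 := by
      have : a * |dot (vmax M) (vmax M')| ≤ a * (D.e / 2) := by
        have := abs_nonneg (dot (vmax M) (vmax M'))
        nlinarith
      exact le_of_mul_le_mul_left this ha
    have h9 : dot (vmax M) (vmax M') ^ 2 ≤ (D.e / 2) ^ 2 := by
      rw [← sq_abs]; gcongr
    nlinarith
  rintro _ ⟨M, hM, rfl⟩ ⟨M', hM', h⟩
  simp only [kap, flipL, Prod.mk.injEq] at h
  by_cases h1 : 0 < lam M
  · refine key M hM M' hM' h.1.symm h1 ?_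
    simpa [h1] using h.2
  · refine key M' hM' M hM h.1 ?_ h1
    simpa [h1] using h.2

theorem kap_snd_of_PSD {M : E} (h : PSD M) (h0 : M ≠ 0) : (D.kap M).2 = true := by
  simp only [kap, decide_eq_true_eq]
  exact lt_of_le_of_ne (h _) (lam_ne_zero h0).symm

/-- forms that, up to a nonnegative multiple of the identity, are positive semidefinite and small
on `u` -/
def Yu (u : V) : Set E :=
  {M | ∃ t : ℝ, 0 ≤ t ∧ PSD (M + t • idf) ∧ bil (M + t • idf) u u ≤ D.e / 8 * tr (M + t • idf)}

theorem convex_Yu (u : V) : Convex ℝ (D.Yu u) := by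
  rintro M ⟨t, ht, h1, h2⟩ M' ⟨t', ht', h1', h2'⟩ a b ha hb -
  have e : a • M + b • M' + (a * t + b * t') • idf = a • (M + t • idf) + b • (M' + t' • idf) := by
    module
  refine ⟨a * t + b * t', by positivity, ?_, ?_⟩
  · intro w
    rw [e, bil_add, bil_smul, bil_smul]
    have := h1 w
    have := h1' w
    positivity
  · rw [e, bil_add, bil_smul, bil_smul, tr_add, tr_smul, tr_smul]
    nlinarith [mul_le_mul_of_nonneg_left h2 ha, mul_le_mul_of_nonneg_left h2' hb]

theorem kap_ne_of_mem_Yu {u : V} (hu : dot u u = 1) {M : E} (hM : M ∈ D.Yu u) :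
    D.kap M ≠ (D.col (ver u), true) := by
  intro h
  simp only [kap, Prod.mk.injEq, decide_eq_true_eq] at h
  obtain ⟨hc, hl⟩ := h
  obtain ⟨t, ht, h1, h2⟩ := hM
  have h3 := D.h _ _ (ne_zero_of_dot_one (vmax_spec M).1) (ne_zero_of_dot_one hu) hc
  rw [(vmax_spec M).1, hu, mul_one, mul_one] at h3
  have h4 := h1.cs (vmax M) u
  have h5 : ∀ w, bil (M + t • idf) (vmax M) w = (lam M + t) * dot (vmax M) w := by
    intro w; rw [bil_add, bil_smul, bil_idf, eigen]; ring
  have h6 : ∀ w, dot w w = 1 → bil (M + t • idf) w w ≤ lam M + t := by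
    intro w hw
    have := (vmax_spec M).2 w
    rw [← lam, abs_of_pos hl, hw, mul_one] at this
    rw [bil_add, bil_smul, bil_idf, hw]
    linarith [le_abs_self (bil M w w)]
  have h7 : tr (M + t • idf) ≤ 4 * (lam M + t) := by
    rw [tr_eq]
    linarith [h6 _ (dot_single 0), h6 _ (dot_single 1), h6 _ (dot_single 2), h6 _ (dot_single 3)]
  rw [h5, h5, (vmax_spec M).1, mul_one] at h4
  have hpos : 0 < lam M + t := by linarith
  have he := D.he
  have h8 : bil (M + t • idf) u u ≤ D.e / 2 * (lam M + t) := by nlinarith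
  have h9 : (lam M + t) ^ 2 * D.e ≤ (lam M + t) ^ 2 * (D.e / 2) := by
    calc (lam M + t) ^ 2 * D.e ≤ (lam M + t) ^ 2 * dot (vmax M) u ^ 2 := by gcongr
      _ = ((lam M + t) * dot (vmax M) u) ^ 2 := by ring
      _ ≤ (lam M + t) * bil (M + t • idf) u u := h4
      _ ≤ (lam M + t) * (D.e / 2 * (lam M + t)) := by gcongr
      _ = (lam M + t) ^ 2 * (D.e / 2) := by ring
  have := le_of_mul_le_mul_left h9 (by positivity)
  linarith

end Data

theorem PSD_ver (x : V) : PSD (ver x) := by
  intro w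
  rw [bil_ver]
  exact mul_nonneg (inv_nonneg.2 (dot_self_nonneg x)) (mul_self_nonneg _)

theorem exists_orth (x y z : V) : ∃ u : V, dot u u = 1 ∧ dot x u = 0 ∧ dot y u = 0 ∧ dot z u = 0 := by
  let L : V →ₗ[ℝ] (Fin 3 → ℝ) :=
    { toFun := fun u => ![dot x u, dot y u, dot z u]
      map_add' := by
        intro u v; ext i; fin_cases i <;> simp [dot] <;> ring
      map_smul' := by
        intro a u; ext i; fin_cases i <;> simp [dot] <;> ring }
  have hker : LinearMap.ker L ≠ ⊥ := LinearMap.ker_ne_bot_of_finrank_lt (by simp)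
  obtain ⟨u, hu, hu0⟩ := Submodule.exists_mem_ne_zero_of_ne_bot hker
  have h0 : dot x u = 0 := congrFun hu 0
  have h1 : dot y u = 0 := congrFun hu 1
  have h2 : dot z u = 0 := congrFun hu 2
  have hpos := dot_self_pos hu0
  set c := (Real.sqrt (dot u u))⁻¹ with hc
  have hc2 : c * c * dot u u = 1 := by
    rw [hc, ← mul_inv, Real.mul_self_sqrt hpos.le, inv_mul_cancel₀ hpos.ne']
  have hs : ∀ w, dot w (c • u) = c * dot w u := by
    intro w; simp only [dot, Pi.smul_apply, smul_eq_mul]; ring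
  refine ⟨c • u, ?_, by rw [hs, h0, mul_zero], by rw [hs, h1, mul_zero], by rw [hs, h2, mul_zero]⟩
  rw [← hc2]; simp only [dot, Pi.smul_apply, smul_eq_mul]; ring

end Crest.Agent.R50
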